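import Vale.Agent.P078.Expected.Iter.Step
import Vale.Agent.P078.Expected.Target

/-!
The iteration and the paving theorem inside an inclusion with expectation.
-/

noncomputable section

namespace Vale.Agent.P078.Expected

universe u

namespace St

variable {K : Type u} [NormedAddCommGroup K] [InnerProductSpace ℂ K] [CompleteSpace K]
  {C : Ctx K} {P : Par} {y0 : K →L[ℂ] K}

/-- Almost all of the algebra can be taken out of play. -/
theorem exists_final (hL : LossBound C) {s0 : St C P} (h0 : s0.Inv y0) {gam δ : ℝ}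
    (hb0 : s0.Budget gam s0.Phi)
    (hg : 0 < gam) (hgz : gam ≤ P.z / 2) (hδ : 0 < δ)
    (htr : traceConst P * (2 * gam / P.eps0 * s0.Phi) ≤ P.eps0 * δ) (hy0 : y0 ∈ C.M)
    (hE : C.E y0 = 0) :
    ∃ s : St C P, s.Inv y0 ∧ s.Budget gam s0.Phi ∧ C.intA s.U ≤ δ := by
  obtain ⟨c, hc, hstep⟩ := exists_step hL hδ h0.Phi_nonneg hg (by linarith [P.z_pos]) htr hy0 hE
  have key : ∀ n : ℕ, ∃ s : St C P, s.Inv y0 ∧ s.Budget gam s0.Phi ∧
      s.Phi ≤ s0.Phi ∧ (C.intA s.U ≤ δ ∨ s.Phi ≤ s0.Phi - n * c) := by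
    intro n
    induction n with
    | zero => exact ⟨s0, h0, hb0, le_rfl, Or.inr (by simp)⟩
    | succ n ih =>
      obtain ⟨s, hs, hb, hle, hcase⟩ := ih
      rcases hcase with hU | hΦ
      · exact ⟨s, hs, hb, hle, Or.inl hU⟩
      obtain ⟨s1, h1, hb1, hle1, -, -, hgap1⟩ := exists_cut hs hb hg hgz
      obtain ⟨s2, h2, hb2, hle2, hgap2, -, hfloor2⟩ := exists_thin h1 hb1 hg.le hgap1
      by_cases hU2 : C.intA s2.U ≤ δ
      · exact ⟨s2, h2, hb2, by linarith, Or.inl hU2⟩
      obtain ⟨t, ht, hbt, hΦt⟩ := hstep s2 h2 hb2 (by linarith) hgap2 hfloor2 (not_le.1 hU2)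
      refine ⟨t, ht, hbt, by linarith, Or.inr ?_⟩
      push_cast
      linarith
  obtain ⟨n, hn⟩ := exists_nat_gt (s0.Phi / c)
  obtain ⟨s, hs, hb, -, hcase⟩ := key n
  refine ⟨s, hs, hb, hcase.resolve_right fun hΦ => ?_⟩
  rw [div_lt_iff₀ hc] at hn
  linarith [hs.Phi_nonneg]

end St

/-- The rate constant. -/
def rate (r : ℕ) : ℝ := 5 * √(20000000 * 3000000000) / √r

/-- Paving with rate `C / √r` inside every inclusion with expectation. -/
theorem paving_rate (hL : ∀ {K : Type u} [NormedAddCommGroup K] [InnerProductSpace ℂ K]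
    [CompleteSpace K] (C : Ctx K), LossBound C) : Paving.{u} rate := by
  intro K _ _ _ C y hy hsa hn hE r hr1 η hη
  have hr0 : (0 : ℝ) < r := by exact_mod_cast hr1
  by_cases hr : 6000000000 ≤ r
  · obtain ⟨N, hN⟩ : ∃ N, N = ‖C.Ω‖ ^ 2 := ⟨_, rfl⟩
    have hN0 : 0 ≤ N := hN ▸ sq_nonneg _
    let P : Par := ⟨r, min (1000000000 / 4) (η / (3 * (2 * N + 1))), hr,
      lt_min (by norm_num) (by positivity)⟩
    obtain ⟨s0, h0, hU0, hΦ0, hb0⟩ :=
      St.exists_init (C := C) (P := P) (min_le_left _ _) hy hsa hn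
    rw [← hN] at hΦ0
    have hz := P.z_pos
    have he := P.eps0_pos
    have he1 : P.eps0 ≤ 1 := by
      rw [Par.eps0, div_le_one (pow_pos P.r_pos 2)]
      nlinarith [P.r_large]
    have hη' := P.hη
    have hT : 0 < St.traceConst P := by
      rw [St.traceConst]
      positivity
    obtain ⟨M, hM⟩ : ∃ M, M = 2 * (2 * N + 1) / P.eps0 := ⟨_, rfl⟩
    have hM0 : 0 < M := hM ▸ div_pos (by positivity) he
    obtain ⟨gam, hgam⟩ : ∃ g, g =
        min (P.z / 2) (η * P.eps0 / (3 * (M * (St.traceConst P + 1 / P.z)))) := ⟨_, rfl⟩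
    have hg : 0 < gam := hgam ▸ lt_min (half_pos hz) (by positivity)
    have hgz : gam ≤ P.z / 2 := hgam ▸ min_le_left _ _
    have hgη : gam * M * (St.traceConst P + 1 / P.z) ≤ P.eps0 * (η / 3) := by
      have : gam ≤ η * P.eps0 / (3 * (M * (St.traceConst P + 1 / P.z))) := hgam ▸ min_le_right _ _
      rw [le_div_iff₀ (by positivity)] at this
      linarith
    have hgΦ : 2 * gam / P.eps0 * s0.Phi ≤ gam * M := by
      rw [hM, show gam * (2 * (2 * N + 1) / P.eps0) = 2 * gam / P.eps0 * (2 * N + 1) by ring]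
      exact mul_le_mul_of_nonneg_left (by linarith) (div_nonneg (by linarith) he.le)
    have htr : St.traceConst P * (2 * gam / P.eps0 * s0.Phi) ≤ P.eps0 * (η / 3) := by
      have := mul_le_mul_of_nonneg_left hgΦ hT.le
      have h2 : 0 ≤ gam * M * (1 / P.z) := by positivity
      linarith
    obtain ⟨s, hs, hb, hU⟩ :=
      St.exists_final (hL C) h0 (hb0 gam) hg hgz (by linarith : 0 < η / 3) htr hy hE
    obtain ⟨f, hf, hsum, q, hq, hqp, htrq, hnorm⟩ :=
      St.exists_paving_of_state hs hb hg.le hsa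
    refine ⟨f, hf, hsum, q, hq, hqp, htrq.trans ?_, hnorm.trans (le_of_eq ?_)⟩
    · have h1 : P.η * s0.Phi ≤ η / 3 := by
        calc P.η * s0.Phi ≤ η / (3 * (2 * N + 1)) * (2 * N + 1) :=
              mul_le_mul (min_le_right _ _) (by linarith) h0.Phi_nonneg (by positivity)
          _ = η / 3 := by field_simp
      have h2 : 2 * gam * s0.Phi / (P.eps0 * P.z) ≤ η / 3 := by
        rw [show 2 * gam * s0.Phi / (P.eps0 * P.z) = 2 * gam / P.eps0 * s0.Phi * (1 / P.z) by ring]
        have h3 := mul_le_mul_of_nonneg_right hgΦ (one_div_nonneg.2 hz.le)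
        have h4 : 0 ≤ gam * M * St.traceConst P := by positivity
        have h5 : P.eps0 * (η / 3) ≤ η / 3 := mul_le_of_le_one_left (by linarith) he1
        linarith
      linarith
    · rw [Par.z, Par.rho, Par.S_eq, rate, ← mul_div_assoc, Real.sqrt_div (by norm_num) _]
      norm_num
      ring
  · classical
    have hsum : ∑ i : Fin r, (if i = ⟨0, hr1⟩ then (1 : C(C.Spec, ℝ)) else 0) = 1 := by simp
    refine ⟨fun i => if i = ⟨0, hr1⟩ then 1 else 0, fun i => by dsimp only; split <;> simp,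
      hsum, 1, one_mem _,
      IsStarProjection.one _, by simp [Ctx.tr, hη.le], ?_⟩
    have e : ∑ i : Fin r, C.op (if i = ⟨0, hr1⟩ then 1 else 0) * y *
        C.op (if i = ⟨0, hr1⟩ then 1 else 0) = y := by
      rw [Finset.sum_eq_single ⟨0, hr1⟩ (fun i _ hi => by simp [hi]) (by simp)]
      simp
    rw [e, one_mul, mul_one]
    refine hn.trans ?_
    rw [rate, le_div_iff₀ (Real.sqrt_pos.2 hr0), one_mul]
    have h1 : √(r : ℝ) ≤ √(20000000 * 3000000000) := by
      refine Real.sqrt_le_sqrt ?_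
      have : (r : ℝ) ≤ ((6000000000 : ℕ) : ℝ) := Nat.cast_le.2 (not_le.1 hr).le
      push_cast at this
      linarith
    linarith [Real.sqrt_nonneg (20000000 * 3000000000 : ℝ)]

end Vale.Agent.P078.Expected
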