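import Vale.Agent.P078.Expected.Iter.State

/-!
Pointwise facts about states with a gap.
-/

noncomputable section

namespace Vale.Agent.P078.Expected

open Vale.Agent.P078.Finite

universe u

variable {K : Type u} [NormedAddCommGroup K] [InnerProductSpace ℂ K] [CompleteSpace K]

namespace Ctx

variable (C : Ctx K)

theorem Er_smul_one_mul {x : K →L[ℂ] K} (hx : x ∈ C.M) (f : C(C.Spec, ℝ)) :
    C.Er (C.op f * x) = f * C.Er x := C.Er_op_mul f hx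

theorem re_tr_op_mul {x : K →L[ℂ] K} (hx : x ∈ C.M) (hs : IsSelfAdjoint x) (f : C(C.Spec, ℝ)) :
    (C.tr (C.op f * x)).re = C.intA (f * C.Er x) := by
  rw [← C.tr_E (mul_mem (C.op_mem_M f) hx), C.E_mul_left (C.op_mem f) hx, intA, map_mul,
    C.op_Er hx hs]

theorem Er_zero : C.Er 0 = 0 := by
  rw [← map_zero C.op, C.Er_op]

theorem abs_Er_le {x w : K →L[ℂ] K} {k : ℝ} (hx : x ∈ C.M) (hw : w ∈ C.M)
    (h1 : -(k • w) ≤ x) (h2 : x ≤ k • w) (χ : C.Spec) : |C.Er x χ| ≤ k * C.Er w χ := by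
  have hkw : k • w ∈ C.M := real_smul_mem hw k
  have a := C.Er_mono (neg_mem hkw) hx h1 χ
  have b := C.Er_mono hx hkw h2 χ
  rw [C.Er_smul k hw, ContinuousMap.smul_apply, smul_eq_mul] at b
  rw [show -(k • w) = (-k) • w from (neg_smul k w).symm, C.Er_smul _ hw, ContinuousMap.smul_apply,
    smul_eq_mul] at a
  rw [abs_le]
  constructor <;> linarith

end Ctx

theorem prod_idem_apply {X : Type*} [TopologicalSpace X] {ι : Type*} [Fintype ι] {f : ι → C(X, ℝ)}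
    (x : X) : (∏ i, f i) x = ∏ i, f i x := by
  classical
  induction (Finset.univ : Finset ι) using Finset.induction_on with
  | empty => simp
  | @insert a t ha ih => rw [Finset.prod_insert ha, Finset.prod_insert ha, ContinuousMap.mul_apply, ih]

namespace St

variable {C : Ctx K} {P : Par} {s : St C P} {y0 : K →L[ℂ] K}

theorem rt_sa (i : Fin P.r) : IsSelfAdjoint (s.rt i) := C.op_sa _

theorem rt_mem (i : Fin P.r) : s.rt i ∈ C.M := C.op_mem_M _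

theorem Inv.sq_R (h : s.Inv y0) (i : Fin P.r) : sqC (s.R i) * sqC (s.R i) = s.R i := by
  ext χ
  exact Real.mul_self_sqrt (h.R_nonneg i χ)

theorem Inv.rt_mul_rt (h : s.Inv y0) (i : Fin P.r) : s.rt i * s.rt i = C.op (s.R i) := by
  rw [rt, ← map_mul, h.sq_R]

theorem Inv.B_sa (h : s.Inv y0) (i : Fin P.r) : IsSelfAdjoint (s.B i) :=
  isSelfAdjoint_ryr (rt_sa i) (h.y_sa i)

theorem Inv.gap_of (h : s.Inv y0) {gam : ℝ} (hg : 0 < gam) (hgz : gam ≤ P.z) {i : Fin P.r}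
    (hB : ‖s.B i‖ ≤ P.z - gam) : Gap P.z gam (s.rt i) (s.y i) :=
  ⟨rt_sa i, h.y_sa i, hg, hgz, hB⟩

theorem Inv.gap0 (h : s.Inv y0) (i : Fin P.r) :
    Gap P.z (P.z - ‖s.B i‖) (s.rt i) (s.y i) :=
  ⟨rt_sa i, h.y_sa i, sub_pos.2 (h.gap i), by linarith [norm_nonneg (s.B i)],
    by rw [sub_sub_cancel]; exact le_rfl⟩

theorem Inv.W_mem (h : s.Inv y0) (σ : ℝ) (i : Fin P.r) : s.W σ i ∈ C.M :=
  Zo_mem C.isClosed_M (rt_mem i) (h.y_mem i) _ _

theorem Inv.W_sa (h : s.Inv y0) (σ : ℝ) (i : Fin P.r) : IsSelfAdjoint (s.W σ i) :=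
  Zo_sa (rt_sa i) (h.y_sa i)

theorem Inv.Z_mem (h : s.Inv y0) (σ : ℝ) (i : Fin P.r) : s.Z σ i ∈ C.M :=
  Zf_mem C.isClosed_M (rt_mem i) (h.y_mem i) _ _

theorem Inv.Z_sa (h : s.Inv y0) (σ : ℝ) (i : Fin P.r) : IsSelfAdjoint (s.Z σ i) :=
  Zf_sa (rt_sa i) (h.y_sa i)

theorem Inv.Er_W_nonneg (h : s.Inv y0) {σ : ℝ} (hσ : |σ| = 1) (i : Fin P.r) (χ : C.Spec) :
    0 ≤ C.Er (s.W σ i) χ :=
  C.Er_nonneg (h.W_mem σ i) ((h.gap0 i).Zo_nonneg hσ) χ

theorem Inv.e_nonneg (h : s.Inv y0) (i : Fin P.r) (χ : C.Spec) : 0 ≤ s.e i χ :=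
  add_nonneg (h.Er_W_nonneg abs_one i χ) (h.Er_W_nonneg (by norm_num) i χ)

theorem sandwich_mem {y : K →L[ℂ] K} (hy : y ∈ C.M) (f : C(C.Spec, ℝ)) : y * C.op f * y ∈ C.M :=
  mul_mem (mul_mem hy (C.op_mem_M f)) hy

theorem sandwich_sa {y : K →L[ℂ] K} (hy : IsSelfAdjoint y) (f : C(C.Spec, ℝ)) :
    IsSelfAdjoint (y * C.op f * y) := isSelfAdjoint_ryr hy (C.op_sa f)

theorem sandwich_nonneg {y : K →L[ℂ] K} (hy : IsSelfAdjoint y) {f : C(C.Spec, ℝ)}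
    (hf : ∀ χ, 0 ≤ f χ) : 0 ≤ y * C.op f * y := by
  have := star_left_conjugate_nonneg (C.op_nonneg hf) y
  rwa [hy.star_eq] at this

theorem Inv.l_nonneg (h : s.Inv y0) (i : Fin P.r) (χ : C.Spec) : 0 ≤ s.l i χ :=
  mul_nonneg (inv_nonneg.2 (sq_nonneg _))
    (C.Er_nonneg (sandwich_mem (h.y_mem i) _) (sandwich_nonneg (h.y_sa i) (h.R_nonneg i)) χ)

theorem Inv.el_nonneg (h : s.Inv y0) (i : Fin P.r) (χ : C.Spec) : 0 ≤ s.e i χ + s.l i χ :=
  add_nonneg (h.e_nonneg i χ) (h.l_nonneg i χ)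

theorem psi_apply (i : Fin P.r) (χ : C.Spec) :
    s.psi i χ = s.R i χ * (1 - 1 / 4 * (1 - s.R i χ)) -
      1000000 * (s.R i χ * (s.e i χ + s.l i χ)) := rfl

theorem F_apply (χ : C.Spec) : s.F χ = ∑ i, s.psi i χ := by
  rw [F, ContinuousMap.sum_apply]

theorem Inv.load_le (h : s.Inv y0) (χ : C.Spec) :
    s.F χ + 1000000 * ∑ i, s.R i χ * (s.e i χ + s.l i χ) ≤ ∑ i, s.R i χ := by
  rw [s.F_apply, Finset.mul_sum, ← Finset.sum_add_distrib]
  refine Finset.sum_le_sum fun i _ => ?_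
  rw [psi_apply, sub_add_cancel]
  have h1 := h.R_nonneg i χ
  have h2 := h.R_le i χ
  nlinarith

theorem Inv.sum_R_le (h : s.Inv y0) (χ : C.Spec) : ∑ i, s.R i χ ≤ P.r / 2 := by
  calc ∑ i, s.R i χ ≤ ∑ _i : Fin P.r, (1 / 2 : ℝ) := Finset.sum_le_sum fun i _ => h.R_le i χ
    _ = P.r / 2 := by simp; ring

theorem Inv.F_le (h : s.Inv y0) (χ : C.Spec) : s.F χ ≤ P.r / 2 := by
  have h1 := h.load_le χ
  have h2 : 0 ≤ ∑ i, s.R i χ * (s.e i χ + s.l i χ) :=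
    Finset.sum_nonneg fun i _ => mul_nonneg (h.R_nonneg i χ) (h.el_nonneg i χ)
  linarith [h.sum_R_le χ]

theorem Inv.R_el_le (h : s.Inv y0) {χ : C.Spec} (hU : s.U χ = 1) (i : Fin P.r) :
    1000000 * (s.R i χ * (s.e i χ + s.l i χ)) ≤ P.r / 2 := by
  have h1 := h.load_le χ
  have h2 : s.R i χ * (s.e i χ + s.l i χ) ≤ ∑ j, s.R j χ * (s.e j χ + s.l j χ) :=
    Finset.single_le_sum (f := fun j => s.R j χ * (s.e j χ + s.l j χ))
      (fun j _ => mul_nonneg (h.R_nonneg j χ) (h.el_nonneg j χ)) (Finset.mem_univ i)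
  linarith [h.sum_R_le χ, h.floor χ hU, P.hη, P.hS]

theorem Inv.U_values (h : s.Inv y0) (χ : C.Spec) : s.U χ = 0 ∨ s.U χ = 1 :=
  idem_values h.U_idem χ

theorem w_apply (χ : C.Spec) : s.w χ = s.U χ * (max (s.F χ - P.S * 1) (P.η / 2))⁻¹ := rfl

theorem Inv.w_nonneg (h : s.Inv y0) (χ : C.Spec) : 0 ≤ s.w χ := by
  rw [w_apply]
  refine mul_nonneg ?_ (inv_nonneg.2 (le_max_of_le_right (half_pos P.hη).le))
  rcases h.U_values χ with h1 | h1 <;> rw [h1] <;> norm_num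

theorem Inv.w_le (h : s.Inv y0) (χ : C.Spec) : s.w χ ≤ 2 / P.η := by
  rw [w_apply]
  have h1 : (max (s.F χ - P.S * 1) (P.η / 2))⁻¹ ≤ 2 / P.η := by
    rw [show 2 / P.η = (P.η / 2)⁻¹ by rw [inv_div]]
    exact inv_anti₀ (half_pos P.hη) (le_max_right _ _)
  rcases h.U_values χ with h2 | h2 <;> rw [h2]
  · rw [zero_mul]; exact div_nonneg zero_le_two P.hη.le
  · rwa [one_mul]

theorem Inv.w_eq (h : s.Inv y0) {χ : C.Spec} (hU : s.U χ = 1) : s.w χ = (s.F χ - P.S)⁻¹ := by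
  rw [w_apply, hU, one_mul, mul_one, max_eq_left]
  linarith [h.floor χ hU]

theorem Inv.le_w (h : s.Inv y0) {χ : C.Spec} (hU : s.U χ = 1) : 1 / (P.r : ℝ) ≤ s.w χ := by
  rw [h.w_eq hU, one_div]
  exact inv_anti₀ (by linarith [h.floor χ hU, P.hη]) (by linarith [h.F_le χ, P.r_pos, P.hS])

theorem lam_apply (χ : C.Spec) : s.lam χ = s.w χ * s.w χ := rfl

theorem Inv.lam_nonneg (_h : s.Inv y0) (χ : C.Spec) : 0 ≤ s.lam χ := mul_self_nonneg (s.w χ)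

theorem Inv.le_lam (h : s.Inv y0) {χ : C.Spec} (hU : s.U χ = 1) : P.eps0 ≤ s.lam χ := by
  rw [lam_apply, Par.eps0, sq, ← one_div_mul_one_div]
  exact mul_self_le_mul_self (one_div_nonneg.2 P.r_pos.le) (h.le_w hU)

theorem Lam_apply (χ : C.Spec) : s.Lam χ = P.eps0 * 1 + 1000000 * s.lam χ := rfl

theorem Inv.Lam_nonneg (h : s.Inv y0) (χ : C.Spec) : 0 ≤ s.Lam χ := by
  rw [Lam_apply]
  linarith [P.eps0_pos, h.lam_nonneg χ]

theorem u_apply (i : Fin P.r) (χ : C.Spec) :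
    s.u i χ = P.eps0 * 1 + s.Lam χ * s.R i χ := rfl

theorem Inv.u_nonneg (h : s.Inv y0) (i : Fin P.r) (χ : C.Spec) : 0 ≤ s.u i χ := by
  rw [u_apply]
  linarith [P.eps0_pos, mul_nonneg (h.Lam_nonneg χ) (h.R_nonneg i χ)]

theorem Inv.Lam_R_le_u (h : s.Inv y0) (i : Fin P.r) (χ : C.Spec) :
    s.Lam χ * s.R i χ ≤ s.u i χ := by
  rw [u_apply]
  linarith [P.eps0_pos]

theorem Inv.mu_nonneg (h : s.Inv y0) (σ : ℝ) (i : Fin P.r) {f : C(C.Spec, ℝ)}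
    (hf : ∀ χ, 0 ≤ f χ) : 0 ≤ s.mu σ i f := by
  have hm := sandwich_mem (h.Z_mem σ i) f
  rw [mu, show C.op (s.u i) * s.Z σ i * C.op f * s.Z σ i =
    C.op (s.u i) * (s.Z σ i * C.op f * s.Z σ i) by simp only [mul_assoc],
    C.re_tr_op_mul hm (sandwich_sa (h.Z_sa σ i) f)]
  exact C.intA_nonneg fun χ => mul_nonneg (h.u_nonneg i χ)
    (C.Er_nonneg hm (sandwich_nonneg (h.Z_sa σ i) hf) χ)

theorem Inv.muy_nonneg (h : s.Inv y0) (i : Fin P.r) {f : C(C.Spec, ℝ)}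
    (hf : ∀ χ, 0 ≤ f χ) : 0 ≤ s.muy i f := by
  have hm := sandwich_mem (h.y_mem i) f
  refine mul_nonneg (inv_nonneg.2 (sq_nonneg _)) ?_
  rw [show C.op (s.u i) * s.y i * C.op f * s.y i = C.op (s.u i) * (s.y i * C.op f * s.y i) by
    simp only [mul_assoc], C.re_tr_op_mul hm (sandwich_sa (h.y_sa i) f)]
  exact C.intA_nonneg fun χ => mul_nonneg (h.u_nonneg i χ)
    (C.Er_nonneg hm (sandwich_nonneg (h.y_sa i) hf) χ)

theorem gainCoef_apply (i : Fin P.r) (χ : C.Spec) :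
    s.gainCoef i χ = 1 - 1 / 4 * (1 - 2 * s.R i χ) := rfl

theorem grad_apply (i : Fin P.r) (f : C(C.Spec, ℝ)) :
    s.grad i f = s.mu 1 i f + s.mu (-1) i f + s.muy i f +
      C.intA (f * (s.Lam * (s.e i + s.l i) - s.lam * s.gainCoef i)) := rfl

theorem finishable_apply (χ : C.Spec) :
    s.finishable χ = 1 - ∏ i, (1 - C.cutAt (s.R i) (1 / 4) χ) := by
  rw [finishable, ContinuousMap.sub_apply, ContinuousMap.one_apply, prod_idem_apply]
  rfl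

theorem finishable_values (χ : C.Spec) : s.finishable χ = 0 ∨ s.finishable χ = 1 := by
  rw [finishable_apply]
  by_cases hex : ∃ i, C.cutAt (s.R i) (1 / 4) χ = 1
  · obtain ⟨i, hi⟩ := hex
    right
    rw [Finset.prod_eq_zero (Finset.mem_univ i) (by rw [hi, sub_self]), sub_zero]
  · push Not at hex
    left
    rw [Finset.prod_eq_one fun i _ => by
      rw [(idem_values (C.cutAt_idem _ _) χ).resolve_right (hex i), sub_zero], sub_self]

theorem R_le_of_not_finishable {χ : C.Spec} (hf : s.finishable χ = 0) (i : Fin P.r) :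
    s.R i χ ≤ 1 / 4 := by
  refine C.le_of_cutAt_eq_zero ((idem_values (C.cutAt_idem _ _) χ).resolve_right fun hi => ?_)
  rw [finishable_apply, Finset.prod_eq_zero (Finset.mem_univ i) (by rw [hi, sub_self]),
    sub_zero] at hf
  exact one_ne_zero hf

end St

end Vale.Agent.P078.Expected
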