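import Vale.Agent.P078.Expected.Iter.Bounds

/-!
The Hahn decomposition of a normal functional on the symbols, and the cells on which the gradient
of the potential is large.
-/

noncomputable section

open scoped InnerProductSpace
open Filter Topology

namespace Vale.Agent.P078.Expected

universe u

variable {K : Type u} [NormedAddCommGroup K] [InnerProductSpace ℂ K] [CompleteSpace K]

namespace Ctx

variable (C : Ctx K)

/-- A functional on symbols that is continuous along strongly convergent projections. -/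
def Normal (F : C(C.Spec, ℝ) →L[ℝ] ℝ) : Prop :=
  ∀ (p : ℕ → C(C.Spec, ℝ)) (P : C(C.Spec, ℝ)), (∀ n, p n * p n = p n) → P * P = P →
    (∀ v, Tendsto (fun n => C.op (p n) v) atTop (𝓝 (C.op P v))) →
      Tendsto (fun n => F (p n)) atTop (𝓝 (F P))

/-- The functional of two vectors on symbols. -/
def vecL (ξ η : K) : C(C.Spec, ℝ) →L[ℝ] ℝ :=
  LinearMap.mkContinuous
    { toFun := fun f => (⟪ξ, C.op f η⟫_ℂ).re
      map_add' := fun f g => by rw [map_add, add_apply, inner_add_right, Complex.add_re]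
      map_smul' := fun t f => by
        rw [map_smul, ← Complex.coe_smul, smul_apply, inner_smul_right,
          Complex.re_ofReal_mul, RingHom.id_apply, smul_eq_mul] }
    (‖ξ‖ * ‖η‖) fun f => by
      refine (Complex.abs_re_le_norm _).trans ((norm_inner_le_norm _ _).trans ?_)
      rw [mul_assoc, mul_comm ‖η‖, ← C.norm_op f]
      exact mul_le_mul_of_nonneg_left ((C.op f).le_opNorm η) (norm_nonneg _)

theorem vecL_apply (ξ η : K) (f : C(C.Spec, ℝ)) : C.vecL ξ η f = (⟪ξ, C.op f η⟫_ℂ).re := rfl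

theorem normal_vecL (ξ η : K) : C.Normal (C.vecL ξ η) := fun _ _ _ _ h =>
  (Complex.continuous_re.tendsto _).comp (tendsto_const_nhds.inner (h η) (𝕜 := ℂ))

variable {C} in
theorem Normal.add {F G : C(C.Spec, ℝ) →L[ℝ] ℝ} (hF : C.Normal F) (hG : C.Normal G) :
    C.Normal (F + G) := fun p P hp hP h => (hF p P hp hP h).add (hG p P hp hP h)

variable {C} in
theorem Normal.smul {F : C(C.Spec, ℝ) →L[ℝ] ℝ} (hF : C.Normal F) (t : ℝ) :
    C.Normal (t • F) := fun p P hp hP h => (hF p P hp hP h).const_mul t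

variable {C} in
theorem Normal.sub {F G : C(C.Spec, ℝ) →L[ℝ] ℝ} (hF : C.Normal F) (hG : C.Normal G) :
    C.Normal (F - G) := fun p P hp hP h => (hF p P hp hP h).sub (hG p P hp hP h)

theorem norm_idem_le_one {p : C(C.Spec, ℝ)} (hp : p * p = p) : ‖p‖ ≤ 1 :=
  (ContinuousMap.norm_le _ zero_le_one).2 fun χ => by
    rcases idem_values hp χ with e | e <;> simp [e]

theorem norm_op_idem_apply_le {p : C(C.Spec, ℝ)} (hp : p * p = p) (v : K) :
    ‖C.op p v‖ ≤ ‖v‖ := by
  refine ((C.op p).le_opNorm v).trans ?_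
  rw [C.norm_op]
  exact mul_le_of_le_one_left (norm_nonneg _) (C.norm_idem_le_one hp)

theorem sq_norm_op_idem {p : C(C.Spec, ℝ)} (hp : p * p = p) :
    ‖C.op p C.Ω‖ ^ 2 = C.intA p := by
  have h := C.tr_star_mul_self (C.op p)
  rw [(C.op_sa p).star_eq, ← map_mul, hp, nrm, ← Complex.ofReal_pow] at h
  rw [intA, h, Complex.ofReal_re]

/-- A sequence of projections of `A` that is Cauchy at the vector of the state converges strongly
to a projection of `A`. -/
theorem exists_idem_limit (p : ℕ → C(C.Spec, ℝ)) (hp : ∀ n, p n * p n = p n)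
    (hc : CauchySeq fun n => C.op (p n) C.Ω) :
    ∃ P : C(C.Spec, ℝ), P * P = P ∧
      ∀ v, Tendsto (fun n => C.op (p n) v) atTop (𝓝 (C.op P v)) := by
  have hcau : ∀ v, CauchySeq fun n => C.op (p n) v := by
    intro v
    refine Metric.cauchySeq_iff.2 fun η hη => ?_
    obtain ⟨_, ⟨T, hT, rfl⟩, hd⟩ := Metric.mem_closure_iff.1 (C.dense_comm v) (η / 3)
      (by linarith)
    have hTc : CauchySeq fun n => C.op (p n) (T C.Ω) := by
      have := T.uniformContinuous.comp_cauchySeq hc
      convert this using 1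
      funext n
      exact congrArg (fun S : K →L[ℂ] K => S C.Ω) (hT _ (C.op_mem_M (p n)))
    obtain ⟨N, hN⟩ := Metric.cauchySeq_iff.1 hTc (η / 3) (by linarith)
    refine ⟨N, fun m hm n hn => ?_⟩
    have hle : ∀ k, dist (C.op (p k) v) (C.op (p k) (T C.Ω)) ≤ dist v (T C.Ω) := fun k => by
      rw [dist_eq_norm, dist_eq_norm, ← map_sub]
      exact C.norm_op_idem_apply_le (hp k) _
    have h4 := dist_triangle4 (C.op (p m) v) (C.op (p m) (T C.Ω)) (C.op (p n) (T C.Ω))
      (C.op (p n) v)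
    have h1 := hle m
    have h2 := hle n
    rw [dist_comm (C.op (p n) v)] at h2
    linarith [hN m hm n hn]
  choose l hl using fun v => cauchySeq_tendsto_of_complete (hcau v)
  let T0 : K →ₗ[ℂ] K :=
    { toFun := l
      map_add' := fun v w => tendsto_nhds_unique (hl (v + w))
        (((hl v).add (hl w)).congr fun n => (map_add _ v w).symm)
      map_smul' := fun c v => tendsto_nhds_unique (hl (c • v))
        (((hl v).const_smul c).congr fun n => (map_smul _ c v).symm) }
  have hbd : ∀ v, ‖T0 v‖ ≤ 1 * ‖v‖ := fun v => by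
    rw [one_mul]
    exact le_of_tendsto (hl v).norm (Eventually.of_forall fun n => C.norm_op_idem_apply_le (hp n) v)
  set T := T0.mkContinuous 1 hbd
  have hT : ∀ v, Tendsto (fun n => C.op (p n) v) atTop (𝓝 (T v)) := hl
  have hTM : T ∈ C.M := C.mem_M_of_comm fun S hS => by
    ext v
    refine tendsto_nhds_unique (hT (S v)) (((S.continuous.tendsto _).comp (hT v)).congr fun n => ?_)
    exact congrArg (fun R : K →L[ℂ] K => R v) (hS _ (C.op_mem_M (p n))).symm
  have hTA : T ∈ C.A := C.mem_A_of_comm hTM fun q _ => by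
    ext v
    refine tendsto_nhds_unique (hT (C.op q v))
      ((((C.op q).continuous.tendsto _).comp (hT v)).congr fun n => ?_)
    exact congrArg (fun R : K →L[ℂ] K => R v) (C.op_comm q (p n))
  have hTs : IsSelfAdjoint T := by
    rw [IsSelfAdjoint, ContinuousLinearMap.star_eq_adjoint]
    refine ContinuousLinearMap.ext fun v => ext_inner_right ℂ fun w => ?_
    rw [ContinuousLinearMap.adjoint_inner_left]
    refine tendsto_nhds_unique ((tendsto_const_nhds (x := v)).inner (hT w) (𝕜 := ℂ))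
      (((hT v).inner (tendsto_const_nhds (x := w)) (𝕜 := ℂ)).congr fun n => ?_)
    rw [← ContinuousLinearMap.adjoint_inner_right, ← ContinuousLinearMap.star_eq_adjoint,
      (C.op_sa _).star_eq]
  refine ⟨C.re T, C.op_inj (ContinuousLinearMap.ext fun v => ?_), fun v => ?_⟩
  swap
  · rw [C.op_re hTA hTs]; exact hT v
  rw [map_mul, C.op_re hTA hTs]
  change T (T v) = T v
  have h0 : Tendsto (fun n => C.op (p n) (C.op (p n) v - T v)) atTop (𝓝 0) :=
    squeeze_zero_norm (fun n => C.norm_op_idem_apply_le (hp n) _)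
      (tendsto_iff_norm_sub_tendsto_zero.1 (hT v))
  have h1 : Tendsto (fun n => C.op (p n) (C.op (p n) v)) atTop (𝓝 (T (T v))) := by
    have := h0.add (hT (T v))
    rw [zero_add] at this
    exact this.congr fun n => by rw [map_sub, sub_add_cancel]
  refine tendsto_nhds_unique h1 ((hT v).congr fun n => ?_)
  exact congrArg (fun R : K →L[ℂ] K => R v) (show C.op (p n) = C.op (p n) * C.op (p n) by
    rw [← map_mul, hp])

/-- A decreasing sequence of projections of `A` converges strongly in `A`. -/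
theorem exists_idem_limit_anti (p : ℕ → C(C.Spec, ℝ)) (hp : ∀ n, p n * p n = p n)
    (hmono : ∀ n m, n ≤ m → p n * p m = p m) :
    ∃ P : C(C.Spec, ℝ), P * P = P ∧
      ∀ v, Tendsto (fun n => C.op (p n) v) atTop (𝓝 (C.op P v)) := by
  refine C.exists_idem_limit p hp ?_
  have hd : ∀ n m, n ≤ m →
      ‖C.op (p n) C.Ω - C.op (p m) C.Ω‖ ^ 2 = C.intA (p n) - C.intA (p m) := by
    intro n m hnm
    have he : (p n - p m) * (p n - p m) = p n - p m := by
      have h := hmono n m hnm
      rw [sub_mul, mul_sub, mul_sub, hp, hp, h, mul_comm (p m) (p n), h]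
      ring
    rw [← sub_apply, ← map_sub, C.sq_norm_op_idem he, eq_sub_iff_add_eq, ← C.intA_add,
      sub_add_cancel]
  have hanti : Antitone fun n => C.intA (p n) := fun n m hnm => by
    nlinarith [hd n m hnm, sq_nonneg ‖C.op (p n) C.Ω - C.op (p m) C.Ω‖]
  have hbb : BddBelow (Set.range fun n => C.intA (p n)) :=
    ⟨0, by
      rintro _ ⟨n, rfl⟩
      exact C.intA_nonneg fun χ => by rcases idem_values (hp n) χ with e | e <;> simp [e]⟩
  have hG := (tendsto_atTop_ciInf hanti hbb).cauchySeq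
  refine Metric.cauchySeq_iff.2 fun η hη => ?_
  obtain ⟨N, hN⟩ := Metric.cauchySeq_iff.1 hG (η ^ 2) (pow_pos hη 2)
  refine ⟨N, fun m hm n hn => ?_⟩
  have key : ∀ a b, N ≤ a → a ≤ b → dist (C.op (p a) C.Ω) (C.op (p b) C.Ω) < η := by
    intro a b ha hab
    rw [dist_eq_norm, ← pow_lt_pow_iff_left₀ (norm_nonneg _) hη.le two_ne_zero, hd a b hab]
    exact lt_of_le_of_lt (le_abs_self _) (hN a ha b (ha.trans hab))
  rcases le_total m n with h | h
  · exact key m n hm h
  · rw [dist_comm]; exact key n m hn h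

/-- Nonnegative symbols are uniformly approximated by nonnegative combinations of projections. -/
theorem exists_simple_nonneg {g : C(C.Spec, ℝ)} (hg : ∀ χ, 0 ≤ g χ) {η : ℝ} (hη : 0 < η) :
    ∃ (n : ℕ) (h : ℝ) (p : ℕ → C(C.Spec, ℝ)), 0 ≤ h ∧ (∀ k, p k * p k = p k) ∧
      ‖g - h • ∑ k ∈ Finset.range n, p k‖ ≤ η := by
  obtain ⟨N, hN⟩ := exists_nat_gt (‖g‖ / η)
  have hN' : ‖g‖ ≤ N * η := by
    rw [div_lt_iff₀ hη] at hN
    exact hN.le
  refine ⟨N, η, fun k => C.cutAt g ((k + 1 : ℝ) * η), hη.le, fun k => C.cutAt_idem _ _, ?_⟩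
  refine (ContinuousMap.norm_le _ hη.le).2 fun χ => ?_
  obtain ⟨k1, k2, -⟩ := step_bound hη.le (hg χ)
    (fun k : ℕ => C.cutAt g ((k + 1 : ℝ) * η) χ) (fun k => by
      rcases idem_values (C.cutAt_idem g ((k + 1 : ℝ) * η)) χ with h0 | h0
      · exact Or.inl ⟨h0, C.le_of_cutAt_eq_zero h0⟩
      · exact Or.inr ⟨h0, C.le_of_cutAt_eq_one h0⟩) N
  rw [← Finset.mul_sum] at k1 k2
  rw [ContinuousMap.sub_apply, ContinuousMap.smul_apply, ContinuousMap.sum_apply, smul_eq_mul,
    Real.norm_eq_abs, abs_le]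
  have hgn : g χ ≤ ‖g‖ := (le_abs_self _).trans (g.norm_coe_le_norm χ)
  rcases min_le_iff.1 k2 with h1 | h1 <;> constructor <;> linarith

/-- A continuous functional that is nonnegative on projections is positive. -/
theorem nonneg_of_idem (G : C(C.Spec, ℝ) →L[ℝ] ℝ) (h : ∀ p, p * p = p → 0 ≤ G p)
    {g : C(C.Spec, ℝ)} (hg : ∀ χ, 0 ≤ g χ) : 0 ≤ G g := by
  refine le_of_forall_pos_le_add fun ε hε => ?_
  obtain ⟨n, t, p, ht, hp, hd⟩ := C.exists_simple_nonneg hg (η := ε / (‖G‖ + 1)) (by positivity)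
  have h1 : 0 ≤ G (t • ∑ k ∈ Finset.range n, p k) := by
    rw [map_smul, map_sum, smul_eq_mul]
    exact mul_nonneg ht (Finset.sum_nonneg fun k _ => h _ (hp k))
  have h2 : |G g - G (t • ∑ k ∈ Finset.range n, p k)| ≤ ε := by
    rw [← map_sub, ← Real.norm_eq_abs]
    refine (G.le_opNorm _).trans
      (le_trans (mul_le_mul_of_nonneg_left hd (norm_nonneg G)) ?_)
    rw [mul_div_assoc', div_le_iff₀ (by positivity)]
    nlinarith [norm_nonneg G]
  linarith [(abs_le.1 h2).1]

/-- The Hahn decomposition of a normal functional. -/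
theorem exists_hahn {F : C(C.Spec, ℝ) →L[ℝ] ℝ} (hF : C.Normal F) :
    ∃ P : C(C.Spec, ℝ), P * P = P ∧ (∀ g, (∀ χ, 0 ≤ g χ) → 0 ≤ F (P * g)) ∧
      ∀ g, (∀ χ, 0 ≤ g χ) → F ((1 - P) * g) ≤ 0 := by
  set S : Set ℝ := {x | ∃ p : C(C.Spec, ℝ), p * p = p ∧ F p = x}
  have hb : BddAbove S := ⟨‖F‖, by
    rintro _ ⟨p, hp, rfl⟩
    refine (le_abs_self _).trans ((F.le_opNorm p).trans ?_)
    exact mul_le_of_le_one_right (norm_nonneg _) (C.norm_idem_le_one hp)⟩
  have hne : S.Nonempty := ⟨F 0, 0, zero_mul _, rfl⟩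
  set α := sSup S
  have hle : ∀ p, p * p = p → F p ≤ α := fun p hp => le_csSup hb ⟨p, hp, rfl⟩
  have hex : ∀ n : ℕ, ∃ p : C(C.Spec, ℝ), p * p = p ∧ α - (1 / 2 : ℝ) ^ n ≤ F p := fun n => by
    obtain ⟨_, ⟨p, hp, rfl⟩, h⟩ := exists_lt_of_lt_csSup hne
      (show α - (1 / 2 : ℝ) ^ n < α from sub_lt_self _ (by positivity))
    exact ⟨p, hp, h.le⟩
  choose p hp hFp using hex
  -- products of consecutive near maximisers
  let q : ℕ → ℕ → C(C.Spec, ℝ) := fun n k => ∏ j ∈ Finset.range (k + 1), p (n + j)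
  have qsucc : ∀ n k, q n (k + 1) = q n k * p (n + (k + 1)) := fun n k =>
    Finset.prod_range_succ _ _
  have qsucc' : ∀ n k, q n (k + 1) = p n * q (n + 1) k := fun n k => by
    simp only [q]
    rw [Finset.prod_range_succ', mul_comm]
    simp only [add_zero]
    refine congrArg _ (Finset.prod_congr rfl fun j _ => ?_)
    rw [add_assoc, add_comm 1 j]
  have qidem : ∀ n k, q n k * q n k = q n k := fun n k => by
    simp only [q]
    rw [← Finset.prod_mul_distrib]
    exact Finset.prod_congr rfl fun j _ => hp _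
  have hq : ∀ n k, α - 2 * (1 / 2 : ℝ) ^ n + (1 / 2 : ℝ) ^ (n + k) ≤ F (q n k) := by
    intro n k
    induction k with
    | zero =>
      have e : q n 0 = p n := by simp [q]
      rw [e, add_zero]
      linarith [hFp n]
    | succ k ih =>
      have hj : (q n k + p (n + (k + 1)) - q n (k + 1)) * (q n k + p (n + (k + 1)) - q n (k + 1)) =
          q n k + p (n + (k + 1)) - q n (k + 1) := by
        rw [qsucc]
        linear_combination (1 - 2 * p (n + (k + 1)) + p (n + (k + 1)) * p (n + (k + 1))) * qidem n k +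
          (1 - q n k) * hp (n + (k + 1))
      have h1 := hle _ hj
      rw [map_sub, map_add] at h1
      have h2 := hFp (n + (k + 1))
      have e : (1 / 2 : ℝ) ^ (n + (k + 1)) = (1 / 2 : ℝ) ^ (n + k) * (1 / 2) := by
        rw [← pow_succ]; congr 1
      linarith
  have qanti : ∀ n a b, a ≤ b → q n a * q n b = q n b := by
    intro n a b hab
    induction b, hab using Nat.le_induction with
    | base => exact qidem n a
    | succ b _ ih => rw [qsucc, ← mul_assoc, ih]
  choose Q hQ hQt using fun n => C.exists_idem_limit_anti (q n) (qidem n) (qanti n)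
  have hFQ : ∀ n, α - 2 * (1 / 2 : ℝ) ^ n ≤ F (Q n) := fun n =>
    ge_of_tendsto (hF (q n) (Q n) (qidem n) (hQ n) (hQt n)) (Eventually.of_forall fun k =>
      (le_add_of_nonneg_right (by positivity : (0 : ℝ) ≤ (1 / 2 : ℝ) ^ (n + k))).trans (hq n k))
  have hQs : ∀ n, Q n * Q (n + 1) = Q n := fun n => by
    refine C.op_inj (ContinuousLinearMap.ext fun v => ?_)
    rw [map_mul]
    have h0 : Tendsto (fun k => C.op (q n (k + 1))
        (C.op (q (n + 1) k) v - C.op (Q (n + 1)) v)) atTop (𝓝 0) :=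
      squeeze_zero_norm (fun k => C.norm_op_idem_apply_le (qidem _ _) _)
        (tendsto_iff_norm_sub_tendsto_zero.1 (hQt (n + 1) v))
    have h1 := ((hQt n (C.op (Q (n + 1)) v)).comp (tendsto_add_atTop_nat 1))
    have h2 := h0.add h1
    rw [zero_add] at h2
    refine tendsto_nhds_unique h2 (((hQt n v).comp (tendsto_add_atTop_nat 1)).congr fun k => ?_)
    simp only [Function.comp_apply, map_sub, sub_add_cancel]
    refine congrArg (fun R : K →L[ℂ] K => R v)
      (show C.op (q n (k + 1)) = C.op (q n (k + 1)) * C.op (q (n + 1) k) from ?_)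
    rw [← map_mul, qsucc', mul_assoc, qidem]
  have hQanti : ∀ a b, a ≤ b → (1 - Q a) * (1 - Q b) = 1 - Q b := by
    intro a b hab
    induction b, hab using Nat.le_induction with
    | base => simp [mul_sub, sub_mul, hQ]
    | succ b _ ih =>
      calc (1 - Q a) * (1 - Q (b + 1)) = (1 - Q a) * ((1 - Q b) * (1 - Q (b + 1))) := by
            congr 1
            linear_combination -hQs b
        _ = _ := by
            rw [← mul_assoc, ih]
            linear_combination hQs b
  obtain ⟨P', hP', hlim⟩ := C.exists_idem_limit_anti (fun n => 1 - Q n)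
    (fun n => by simp [mul_sub, sub_mul, hQ]) hQanti
  have hP : (1 - P') * (1 - P') = 1 - P' := by simp [mul_sub, sub_mul, hP']
  have hPlim : ∀ v, Tendsto (fun n => C.op (Q n) v) atTop (𝓝 (C.op (1 - P') v)) := by
    intro v
    have := (tendsto_const_nhds (x := v)).sub (hlim v)
    simp only [map_sub, map_one, sub_apply, one_apply_eq_self] at this ⊢
    exact this.congr fun n => sub_sub_cancel _ _
  have hFP : F (1 - P') = α := by
    refine le_antisymm (hle _ hP) ?_
    have h1 : Tendsto (fun n : ℕ => α - 2 * (1 / 2 : ℝ) ^ n) atTop (𝓝 α) := by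
      simpa using tendsto_const_nhds.sub ((tendsto_pow_atTop_nhds_zero_of_lt_one
        (by norm_num : (0 : ℝ) ≤ 1 / 2) (by norm_num)).const_mul 2)
    exact le_of_tendsto_of_tendsto' h1 (hF Q _ hQ hP hPlim) hFQ
  set R := 1 - P'
  refine ⟨R, hP, fun g hg => C.nonneg_of_idem (F.comp (ContinuousLinearMap.mul ℝ _ R)) (fun e he => ?_) hg,
    fun g hg => ?_⟩
  · have h1 := hle (R * (1 - e)) (by
      rw [mul_mul_mul_comm, hP]; congr 1; simp [mul_sub, sub_mul, he])
    rw [mul_sub, mul_one, map_sub, hFP] at h1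
    change 0 ≤ F (R * e)
    linarith
  · have := C.nonneg_of_idem (-(F.comp (ContinuousLinearMap.mul ℝ _ (1 - R)))) (fun e he => ?_) hg
    · change 0 ≤ -F ((1 - R) * g) at this
      linarith
    · have h1 := hle (R + (1 - R) * e) (by
        linear_combination (1 - 2 * e + e * e) * hP + (1 - R) * he)
      rw [map_add, hFP] at h1
      change 0 ≤ -F ((1 - R) * e)
      linarith

end Ctx

namespace St

variable {C : Ctx K} {P : Par} (s : St C P)

/-- The gradient minus a multiple of the barrier weight, as a continuous functional. -/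
def gradL (τ : ℝ) (i : Fin P.r) : C(C.Spec, ℝ) →L[ℝ] ℝ :=
  C.vecL (star (C.op (s.u i) * s.Z 1 i) C.Ω) (s.Z 1 i C.Ω) +
    C.vecL (star (C.op (s.u i) * s.Z (-1) i) C.Ω) (s.Z (-1) i C.Ω) +
    (P.z ^ 2)⁻¹ • C.vecL (star (C.op (s.u i) * s.y i) C.Ω) (s.y i C.Ω) +
    C.vecL C.Ω (C.op (s.Lam * (s.e i + s.l i) - s.lam * s.gainCoef i) C.Ω) -
    τ • C.vecL C.Ω (C.op s.lam C.Ω)

theorem vecL_star_apply (a b : K →L[ℂ] K) (f : C(C.Spec, ℝ)) :
    C.vecL (star a C.Ω) (b C.Ω) f = (C.tr (a * C.op f * b)).re := by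
  rw [Ctx.vecL_apply, ContinuousLinearMap.star_eq_adjoint,
    ContinuousLinearMap.adjoint_inner_left]
  rfl

theorem vecL_op_apply (g f : C(C.Spec, ℝ)) :
    C.vecL C.Ω (C.op g C.Ω) f = C.intA (f * g) := by
  rw [Ctx.vecL_apply, Ctx.intA, map_mul]
  rfl

theorem gradL_apply (τ : ℝ) (i : Fin P.r) (f : C(C.Spec, ℝ)) :
    s.gradL τ i f = s.grad i f - τ * C.intA (f * s.lam) := by
  simp only [gradL, sub_apply, add_apply, smul_apply, smul_eq_mul, vecL_star_apply,
    vecL_op_apply, grad, mu, muy, mul_assoc]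

theorem normal_gradL (τ : ℝ) (i : Fin P.r) : C.Normal (s.gradL τ i) :=
  (((((C.normal_vecL _ _).add (C.normal_vecL _ _)).add ((C.normal_vecL _ _).smul _)).add
    (C.normal_vecL _ _))).sub ((C.normal_vecL _ _).smul τ)

/-- The cells where the gradient exceeds `τ` times the barrier weight. -/
def bad (τ : ℝ) (i : Fin P.r) : C(C.Spec, ℝ) :=
  s.U * (C.exists_hahn (s.normal_gradL τ i)).choose

variable {s} {y0 : K →L[ℂ] K}

theorem Inv.bad_idem (h : s.Inv y0) (τ : ℝ) (i : Fin P.r) :
    s.bad τ i * s.bad τ i = s.bad τ i := by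
  rw [bad, mul_mul_mul_comm, h.U_idem, (C.exists_hahn (s.normal_gradL τ i)).choose_spec.1]

theorem Inv.U_mul_bad (h : s.Inv y0) (τ : ℝ) (i : Fin P.r) : s.U * s.bad τ i = s.bad τ i := by
  rw [bad, ← mul_assoc, h.U_idem]

theorem Inv.bad_le (h : s.Inv y0) (τ : ℝ) (i : Fin P.r) (χ : C.Spec) :
    0 ≤ s.bad τ i χ ∧ s.bad τ i χ ≤ s.U χ := by
  have e : s.U χ * s.bad τ i χ = s.bad τ i χ :=
    congrArg (fun F : C(C.Spec, ℝ) => F χ) (h.U_mul_bad τ i)
  rcases idem_values (h.bad_idem τ i) χ with b | b <;> rcases h.U_values χ with u | u <;>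
    constructor <;> nlinarith

/-- The gradient is large on the bad cells. -/
theorem Inv.le_grad_bad (h : s.Inv y0) (τ : ℝ) (i : Fin P.r) {g : C(C.Spec, ℝ)}
    (hg : ∀ χ, 0 ≤ g χ) :
    τ * C.intA (s.bad τ i * g * s.lam) ≤ s.grad i (s.bad τ i * g) := by
  have := (C.exists_hahn (s.normal_gradL τ i)).choose_spec.2.1 (s.U * g) fun χ =>
    mul_nonneg (by rcases h.U_values χ with u | u <;> simp [u]) (hg χ)
  rw [gradL_apply, ← mul_assoc, mul_comm _ s.U, ← bad] at this
  linarith

/-- The gradient is small off the bad cells. -/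
theorem Inv.grad_le (h : s.Inv y0) (τ : ℝ) (i : Fin P.r) {f : C(C.Spec, ℝ)}
    (hf : ∀ χ, 0 ≤ f χ) (hsupp : f * (s.U * (1 - s.bad τ i)) = f) :
    s.grad i f ≤ τ * C.intA (f * s.lam) := by
  have := (C.exists_hahn (s.normal_gradL τ i)).choose_spec.2.2 f hf
  have e : (1 - (C.exists_hahn (s.normal_gradL τ i)).choose) * f = f := by
    ext χ
    have h1 : f χ * (s.U χ * (1 - s.U χ * (C.exists_hahn (s.normal_gradL τ i)).choose χ)) = f χ :=
      congrArg (fun F : C(C.Spec, ℝ) => F χ) hsupp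
    rw [ContinuousMap.mul_apply, ContinuousMap.sub_apply, ContinuousMap.one_apply]
    rcases h.U_values χ with u | u <;> rw [u] at h1
    · rw [zero_mul, mul_zero] at h1
      rw [← h1, mul_zero]
    · linarith
  rw [e, gradL_apply] at this
  linarith

end St

end Vale.Agent.P078.Expected
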