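import Vale.Agent.P078.Expected.Iter.Hahn
import Vale.Agent.P078.Expected.Iter.StepState

/-!
The lower bound for the second variation of one colour off its bad cells, inside an inclusion
with expectation.
-/

noncomputable section

namespace Vale.Agent.P078.Expected

open Vale.Agent.P078.Finite (Zo Zf Gap res real_smul_mem cfc_mem_closed star_cfc Zf_mem)

universe u

variable {K : Type u} [NormedAddCommGroup K] [InnerProductSpace ℂ K] [CompleteSpace K]

namespace Ctx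

variable (C : Ctx K)

/-- Real symbols as elements of `M`. -/
def opM : C(C.Spec, ℝ) →ₐ[ℝ] C.M where
  toFun f := ⟨C.op f, C.op_mem_M f⟩
  map_one' := Subtype.ext (map_one C.op)
  map_mul' f g := Subtype.ext (map_mul C.op f g)
  map_zero' := Subtype.ext (map_zero C.op)
  map_add' f g := Subtype.ext (map_add C.op f g)
  commutes' r := Subtype.ext (AlgHom.commutes C.op r)

/-- The real part of the state on `M`. -/
def tauM : C.M →ₗ[ℝ] ℝ where
  toFun x := (C.tr x).re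
  map_add' x y := by
    rw [show ((x + y : C.M) : K →L[ℂ] K) = x + y from rfl, C.tr_add, Complex.add_re]
  map_smul' t x := by
    rw [show ((t • x : C.M) : K →L[ℂ] K) = t • (x : K →L[ℂ] K) from rfl,
      ← Complex.coe_smul, C.tr_smul, Complex.re_ofReal_mul]
    rfl

theorem isSymState_tauM : IsSymState C.opM C.tauM where
  nonneg a := C.tr_nonneg (star_mul_self_nonneg (a : K →L[ℂ] K))
  comm p x := congrArg Complex.re (C.tr_comm (C.op_mem p) x.2)
  star_eq a := by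
    change (C.tr (star (a : K →L[ℂ] K))).re = (C.tr a).re
    rw [C.tr_star, Complex.conj_re]
  sa f := Subtype.ext (C.op_sa f).star_eq

theorem exists_root_Zo {z gam : ℝ} {r : C(C.Spec, ℝ)} {y : K →L[ℂ] K} (hy : y ∈ C.M)
    (h : Gap z gam (C.op r) y) {σ : ℝ} (hσ : |σ| = 1) :
    ∃ k : C.M, star (k : K →L[ℂ] K) * k = Zo z σ (C.op r) y := by
  set B := C.op r * y * C.op r with hB
  have hBM : B ∈ C.M := mul_mem (mul_mem (C.op_mem_M r) hy) (C.op_mem_M r)
  set φ := fun t : ℝ => √(z⁻¹ * (z - σ * t)⁻¹) with hφ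
  have hc : ContinuousOn φ (spectrum ℝ B) := (continuousOn_const.mul (h.contOn hσ)).sqrt
  refine ⟨⟨cfc φ B * C.op r * y, mul_mem (mul_mem (cfc_mem_closed C.isClosed_M φ hBM)
    (C.op_mem_M r)) hy⟩, ?_⟩
  have e : cfc φ B * cfc φ B = z⁻¹ • res z σ B := by
    rw [← cfc_mul φ φ B hc hc, res, ← cfc_smul z⁻¹ (fun t => (z - σ * t)⁻¹) B (h.contOn hσ)]
    refine cfc_congr fun t ht => ?_
    exact Real.mul_self_sqrt (mul_nonneg (inv_nonneg.2 h.z_pos.le)
      (inv_nonneg.2 (h.pos.le.trans (h.gam_le hσ ht))))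
  change star (cfc φ B * C.op r * y) * (cfc φ B * C.op r * y) = _
  rw [star_mul, star_mul, star_cfc, h.hr.star_eq, h.hy.star_eq,
    show y * (C.op r * cfc φ B) * (cfc φ B * C.op r * y) =
      y * C.op r * (cfc φ B * cfc φ B) * C.op r * y by simp only [mul_assoc], e, Zo]
  simp only [mul_smul_comm, smul_mul_assoc, ← hB]

theorem exists_root_affine {z gam : ℝ} {r : C(C.Spec, ℝ)} {y : K →L[ℂ] K} (hy : y ∈ C.M)
    (h : Gap z gam (C.op r) y) {σ : ℝ} (hσ : |σ| = 1) :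
    ∃ m : C.M, star (m : K →L[ℂ] K) * m =
      z • (1 : K →L[ℂ] K) + σ • (C.op r * y * C.op r) := by
  set B := C.op r * y * C.op r with hB
  have hBM : B ∈ C.M := mul_mem (mul_mem (C.op_mem_M r) hy) (C.op_mem_M r)
  set φ := fun t : ℝ => √(z - (-σ) * t) with hφ
  have hc : Continuous φ := by unfold φ; fun_prop
  refine ⟨⟨cfc φ B, cfc_mem_closed C.isClosed_M φ hBM⟩, ?_⟩
  change star (cfc φ B) * cfc φ B = _
  rw [star_cfc, ← cfc_mul φ φ B hc.continuousOn hc.continuousOn,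
    cfc_congr (g := fun t => z - (-σ) * t) fun t ht => Real.mul_self_sqrt
      (h.pos.le.trans (h.gam_le (by rwa [abs_neg]) ht)), hB, h.affine_eq, neg_smul,
    sub_neg_eq_add]

end Ctx

namespace St

variable {C : Ctx K} {P : Par} (s : St C P)

/-- Where one colour is moved: cells that cannot be finished and are not bad for it. -/
def mask (τ : ℝ) (i : Fin P.r) : C(C.Spec, ℝ) := s.U * (1 - s.finishable) * (1 - s.bad τ i)

/-- The weight of one colour on its cells. -/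
def Rm (τ : ℝ) (i : Fin P.r) : C(C.Spec, ℝ) := s.R i * s.mask τ i

/-- The scaling of the variables of one colour, for a weight `ω` above `ζ`. -/
def m (_s : St C P) (ω : Fin P.r → C(C.Spec, ℝ)) (i : Fin P.r) : C(C.Spec, ℝ) :=
  ⟨fun χ => (√(max (ω i χ) P.zeta))⁻¹,
    (((ω i).continuous.max continuous_const).sqrt).inv₀ fun _ =>
      (Real.sqrt_pos.2 (lt_max_of_lt_right P.zeta_pos)).ne'⟩

/-- The size of a move of one colour. -/
def d (τ : ℝ) (ω : Fin P.r → C(C.Spec, ℝ)) (i : Fin P.r) : C(C.Spec, ℝ) := s.Rm τ i * s.m ω i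

variable {s} {y0 : K →L[ℂ] K} {τ : ℝ} {ω : Fin P.r → C(C.Spec, ℝ)}

theorem Inv.mask_idem (h : s.Inv y0) (τ : ℝ) (i : Fin P.r) :
    s.mask τ i * s.mask τ i = s.mask τ i := by
  ext χ
  simp only [mask, ContinuousMap.mul_apply, ContinuousMap.sub_apply, ContinuousMap.one_apply]
  rcases h.U_values χ with hu | hu <;> rcases s.finishable_values χ with hf | hf <;>
    rcases idem_values (h.bad_idem τ i) χ with hb | hb <;> rw [hu, hf, hb] <;> norm_num

theorem Inv.mask_values (h : s.Inv y0) (τ : ℝ) (i : Fin P.r) (χ : C.Spec) :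
    s.mask τ i χ = 0 ∨ s.mask τ i χ = 1 := idem_values (h.mask_idem τ i) χ

theorem Inv.of_mask_eq_one (h : s.Inv y0) {τ : ℝ} {i : Fin P.r} {χ : C.Spec}
    (hm : s.mask τ i χ = 1) :
    s.U χ = 1 ∧ s.finishable χ = 0 ∧ s.bad τ i χ = 0 := by
  simp only [mask, ContinuousMap.mul_apply, ContinuousMap.sub_apply,
    ContinuousMap.one_apply] at hm
  rcases h.U_values χ with hu | hu <;> rcases s.finishable_values χ with hf | hf <;>
    rcases idem_values (h.bad_idem τ i) χ with hb | hb <;>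
      simp_all

theorem Inv.mask_mul_offBad (h : s.Inv y0) (τ : ℝ) (i : Fin P.r) :
    s.mask τ i * (s.U * (1 - s.bad τ i)) = s.mask τ i := by
  ext χ
  rcases h.mask_values τ i χ with hm | hm
  · simp [hm]
  · obtain ⟨hu, -, hb⟩ := h.of_mask_eq_one hm
    simp [hm, hu, hb]

theorem Inv.Rm_nonneg (h : s.Inv y0) (τ : ℝ) (i : Fin P.r) (χ : C.Spec) : 0 ≤ s.Rm τ i χ :=
  mul_nonneg (h.R_nonneg i χ) (by rcases h.mask_values τ i χ with e | e <;> simp [e])

theorem Inv.Rm_le_R (h : s.Inv y0) (τ : ℝ) (i : Fin P.r) (χ : C.Spec) :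
    s.Rm τ i χ ≤ s.R i χ := by
  rw [Rm, ContinuousMap.mul_apply]
  rcases h.mask_values τ i χ with e | e <;> simp [e, h.R_nonneg i χ]

theorem Inv.Rm_le (h : s.Inv y0) (τ : ℝ) (i : Fin P.r) (χ : C.Spec) : s.Rm τ i χ ≤ 1 / 2 :=
  (h.Rm_le_R τ i χ).trans (h.R_le i χ)

theorem Inv.m_apply (h : s.Inv y0) {i : Fin P.r}
    (hω : ∀ χ, s.Rm τ i χ + P.zeta ≤ ω i χ) (χ : C.Spec) :
    s.m ω i χ = (√(ω i χ))⁻¹ := by
  change (√(max (ω i χ) P.zeta))⁻¹ = _
  rw [max_eq_left (by linarith [hω χ, h.Rm_nonneg τ i χ])]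

theorem d_apply (τ : ℝ) (ω : Fin P.r → C(C.Spec, ℝ)) (i : Fin P.r) (χ : C.Spec) :
    s.d τ ω i χ = s.Rm τ i χ * s.m ω i χ := rfl

/-- The square of a move is the squared weight over `ω`. -/
theorem Inv.d_sq_eq (h : s.Inv y0) {i : Fin P.r} (hω : ∀ χ, s.Rm τ i χ + P.zeta ≤ ω i χ)
    (χ : C.Spec) : s.d τ ω i χ * s.d τ ω i χ = s.Rm τ i χ ^ 2 / ω i χ := by
  have hp : 0 < ω i χ := by linarith [hω χ, h.Rm_nonneg τ i χ, P.zeta_pos]
  rw [d_apply, h.m_apply hω, mul_mul_mul_comm, ← mul_inv, Real.mul_self_sqrt hp.le,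
    ← div_eq_mul_inv, sq]

theorem Inv.d_sq_le (h : s.Inv y0) {i : Fin P.r} (hω : ∀ χ, s.Rm τ i χ + P.zeta ≤ ω i χ)
    (χ : C.Spec) : s.d τ ω i χ * s.d τ ω i χ ≤ s.Rm τ i χ := by
  have h0 := h.Rm_nonneg τ i χ
  have hp : 0 < ω i χ := by linarith [hω χ, P.zeta_pos]
  rw [h.d_sq_eq hω, div_le_iff₀ hp, sq]
  exact mul_le_mul_of_nonneg_left (by linarith [hω χ, P.zeta_pos]) h0

theorem Inv.d_mul_mask (h : s.Inv y0) (τ : ℝ) (ω : Fin P.r → C(C.Spec, ℝ)) (i : Fin P.r) :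
    s.d τ ω i * s.mask τ i = s.d τ ω i := by
  rw [d, Rm, mul_right_comm (s.R i * s.mask τ i), mul_assoc (s.R i), h.mask_idem]

theorem Inv.gainCoef_le (h : s.Inv y0) (i : Fin P.r) (χ : C.Spec) : s.gainCoef i χ ≤ 1 := by
  rw [gainCoef_apply]
  linarith [h.R_le i χ]

/-- The load functional is small off the bad cells. -/
theorem Inv.load_fun_le (h : s.Inv y0) (hτ : τ ≤ 1) (i : Fin P.r) {f : C(C.Spec, ℝ)}
    (hf : ∀ χ, 0 ≤ f χ) (hsupp : f * s.mask τ i = f) :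
    s.mu 1 i f + s.mu (-1) i f + s.muy i f + C.intA (f * (s.Lam * (s.e i + s.l i))) ≤
      2 * C.intA (f * s.lam) := by
  have h1 := h.grad_le τ i hf (by
    conv_lhs => rw [← hsupp]
    rw [mul_assoc, h.mask_mul_offBad, hsupp])
  rw [grad_apply, show f * (s.Lam * (s.e i + s.l i) - s.lam * s.gainCoef i) =
    f * (s.Lam * (s.e i + s.l i)) + (-1 : ℝ) • (f * s.lam * s.gainCoef i) by
      rw [neg_one_smul, mul_assoc]; ring, C.intA_add, C.intA_smul] at h1
  have h2 : C.intA (f * s.lam * s.gainCoef i) ≤ C.intA (f * s.lam) :=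
    C.intA_mono fun χ => mul_le_of_le_one_right
      (mul_nonneg (hf χ) (h.lam_nonneg χ)) (h.gainCoef_le i χ)
  have h3 : τ * C.intA (f * s.lam) ≤ C.intA (f * s.lam) :=
    mul_le_of_le_one_left (C.intA_nonneg fun χ => mul_nonneg (hf χ) (h.lam_nonneg χ)) hτ
  linarith

/-- The second variation of one colour along a move off its bad cells. -/
theorem Inv.quad_nonneg (h : s.Inv y0) (hτ : τ ≤ 1) (ω : Fin P.r → C(C.Spec, ℝ)) (i : Fin P.r)
    (v : C(C.Spec, ℝ)) :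
    0 ≤ s.Q i (s.d τ ω i * v) + s.bForm i (s.d τ ω i * v) +
      4 * C.intA (s.lam * (s.Rm τ i * (s.m ω i * s.m ω i)) * (v * v)) := by
  set r : C(C.Spec, ℝ) := sqC (s.R i) with hr
  set g : C(C.Spec, ℝ) := r * (s.mask τ i * (s.m ω i * v)) with hg
  set f : C(C.Spec, ℝ) := s.d τ ω i * v with hfdef
  have hrr : r * r = s.R i := h.sq_R i
  have hf : f = g * r := by
    rw [hfdef, hg, d, Rm, ← hrr]
    ring
  have hG : g * g = s.Rm τ i * (s.m ω i * s.m ω i) * (v * v) := by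
    rw [hg, Rm, ← hrr]
    linear_combination (r * r * (s.m ω i * s.m ω i) * (v * v)) * h.mask_idem τ i
  set G : C(C.Spec, ℝ) := g * g with hGdef
  have hgap : Gap P.z (P.z - ‖s.B i‖) (C.op r) (s.y i) := h.gap0 i
  obtain ⟨k₁, hk₁⟩ := C.exists_root_Zo (h.y_mem i) hgap abs_one
  obtain ⟨k₂, hk₂⟩ := C.exists_root_Zo (h.y_mem i) hgap (σ := -1) (by norm_num)
  obtain ⟨m₁, hm₁⟩ := C.exists_root_affine (h.y_mem i) hgap abs_one
  obtain ⟨m₂, hm₂⟩ := C.exists_root_affine (h.y_mem i) hgap (σ := -1) (by norm_num)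
  have hu : ∀ χ, s.Lam χ * (r χ * r χ) ≤ s.u i χ := fun χ => by
    rw [show r χ * r χ = s.R i χ from congrArg (fun F : C(C.Spec, ℝ) => F χ) hrr]
    exact h.Lam_R_le_u i χ
  set lr : C(C.Spec, ℝ) := sqC s.Lam
  set w : C(C.Spec, ℝ) := sqC (s.u i - s.Lam * (r * r))
  have hlr : lr * lr = s.Lam := ContinuousMap.ext fun χ => Real.mul_self_sqrt (h.Lam_nonneg χ)
  have huw : s.u i = s.Lam * (r * r) + w * w := ContinuousMap.ext fun χ => by
    change s.u i χ = s.Lam χ * (r χ * r χ) +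
      √(s.u i χ - s.Lam χ * (r χ * r χ)) * √(s.u i χ - s.Lam χ * (r χ * r χ))
    rw [Real.mul_self_sqrt (sub_nonneg.2 (hu χ))]
    ring
  set Y : C.M := ⟨s.y i, h.y_mem i⟩
  set Z₁ : C.M := ⟨s.Z 1 i, h.Z_mem 1 i⟩
  set Z₂ : C.M := ⟨s.Z (-1) i, h.Z_mem (-1) i⟩
  have hY : star Y = Y := Subtype.ext (h.y_sa i).star_eq
  have hZ₁ : Z₁ = (1 / P.z) • Y + star k₁ * k₁ := Subtype.ext <| by
    change Zf P.z 1 (C.op r) (s.y i) = (1 / P.z) • s.y i + star (k₁ : K →L[ℂ] K) * k₁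
    rw [hk₁, Zf]
  have hZ₂ : Z₂ = ((-1) / P.z) • Y + star k₂ * k₂ := Subtype.ext <| by
    change Zf P.z (-1) (C.op r) (s.y i) = ((-1) / P.z) • s.y i + star (k₂ : K →L[ℂ] K) * k₂
    rw [hk₂, Zf]
  have hm₁' : star m₁ * m₁ = P.z • (1 : C.M) + (1 : ℝ) • (C.opM r * Y * C.opM r) :=
    Subtype.ext hm₁
  have hm₂' : star m₂ * m₂ = P.z • (1 : C.M) + (-1 : ℝ) • (C.opM r * Y * C.opM r) :=
    Subtype.ext hm₂
  have key := C.isSymState_tauM.neg_colourBound_le hY hlr huw hf P.z_pos one_pos hZ₁ hZ₂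
    hm₁' hm₂'
  -- the ingredients
  have hW : ∀ (σ : ℝ) (k : C.M), star (k : K →L[ℂ] K) * k = s.W σ i →
      C.tauM (C.opM (s.Lam * G) * (star k * k)) = C.intA (s.Lam * G * C.Er (s.W σ i)) := by
    intro σ k hk
    change (C.tr (C.op (s.Lam * G) * (star (k : K →L[ℂ] K) * k))).re = _
    rw [hk, C.re_tr_op_mul (h.W_mem σ i) (h.W_sa σ i)]
  have hl : C.tauM (C.opM (s.Lam * G) * Y * C.opM (r * r) * Y) =
      P.z ^ 2 * C.intA (G * (s.Lam * s.l i)) := by
    change (C.tr (C.op (s.Lam * G) * s.y i * C.op (r * r) * s.y i)).re = _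
    rw [hrr, show C.op (s.Lam * G) * s.y i * C.op (s.R i) * s.y i =
      C.op (s.Lam * G) * (s.y i * C.op (s.R i) * s.y i) by simp only [mul_assoc],
      C.re_tr_op_mul (sandwich_mem (h.y_mem i) _) (sandwich_sa (h.y_sa i) _), l,
      mul_smul_comm, mul_smul_comm, C.intA_smul, mul_inv_cancel_left₀ (pow_ne_zero 2 P.z_pos.ne'),
      show ∀ x : C(C.Spec, ℝ), G * (s.Lam * x) = s.Lam * G * x from fun x => by ring]
  have hy2 : C.tauM (C.opM (s.u i) * Y * C.opM G * Y) = P.z ^ 2 * s.muy i G := by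
    rw [muy, ← mul_assoc, mul_inv_cancel₀ (pow_ne_zero 2 P.z_pos.ne'), one_mul]
    rfl
  have hz2 : P.z ^ 2 ≠ 0 := pow_ne_zero 2 P.z_pos.ne'
  -- the two sides
  have hlow : signForm C.opM C.tauM (s.u i) s.Lam f Z₁ + signForm C.opM C.tauM (s.u i) s.Lam f Z₂ +
      C.tauM (C.opM s.Lam * C.opM f * Y * C.opM f * Y) / P.z ^ 2 =
        s.Q i f + 1 / 4 * C.intA (s.lam * (f * f)) := by
    rw [Q, sub_add_cancel]
    rfl
  have hup : signBound C.opM C.tauM (s.u i) s.Lam (r * r) g f Y k₁ Z₁ P.z 1 +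
      signBound C.opM C.tauM (s.u i) s.Lam (r * r) g f Y k₂ Z₂ P.z 1 +
      (C.tauM (C.opM (s.Lam * G) * Y * C.opM (r * r) * Y) +
        C.tauM (C.opM (s.u i) * Y * C.opM G * Y)) / (2 * P.z ^ 2) =
      s.mu 1 i G + s.mu (-1) i G + 3 / 2 * s.muy i G +
        (5 / 4 * C.intA (G * (s.Lam * s.e i)) + 3 / 2 * C.intA (G * (s.Lam * s.l i))) +
        s.bForm i f := by
    simp only [signBound, ← hGdef]
    rw [hW 1 k₁ hk₁, hW (-1) k₂ hk₂, hl, hy2,
      show C.tauM (C.opM (s.u i) * Z₁ * C.opM G * Z₁) = s.mu 1 i G from rfl,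
      show C.tauM (C.opM (s.u i) * Z₂ * C.opM G * Z₂) = s.mu (-1) i G from rfl,
      show C.tauM (C.opM (s.u i) * Y * C.opM f * (star k₁ * k₁) * C.opM f * Y) =
        (C.tr (C.op (s.u i) * s.y i * C.op f * (star (k₁ : K →L[ℂ] K) * k₁) * C.op f * s.y i)).re
        from rfl,
      show C.tauM (C.opM (s.u i) * Y * C.opM f * (star k₂ * k₂) * C.opM f * Y) =
        (C.tr (C.op (s.u i) * s.y i * C.op f * (star (k₂ : K →L[ℂ] K) * k₂) * C.op f * s.y i)).re
        from rfl,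
      show star (k₁ : K →L[ℂ] K) * k₁ = s.W 1 i from hk₁,
      show star (k₂ : K →L[ℂ] K) * k₂ = s.W (-1) i from hk₂,
      bForm, show G * (s.Lam * s.e i) = s.Lam * G * C.Er (s.W 1 i) + s.Lam * G * C.Er (s.W (-1) i) by
        rw [e]; ring, C.intA_add]
    have hz := P.z_pos.ne'
    field_simp
    ring
  rw [hlow, hup] at key
  have hG0 : ∀ χ, 0 ≤ G χ := fun χ => mul_self_nonneg (g χ)
  have hGsupp : G * s.mask τ i = G := by
    rw [hGdef, hg]
    linear_combination (r * r * (s.m ω i * v * (s.m ω i * v)) * s.mask τ i) * h.mask_idem τ i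
  have hload := h.load_fun_le hτ i hG0 hGsupp
  rw [mul_add, mul_add, C.intA_add] at hload
  have hG' : s.lam * (s.Rm τ i * (s.m ω i * s.m ω i)) * (v * v) = G * s.lam := by
    rw [hG]; ring
  rw [hG']
  have hX : C.intA (s.lam * (f * f)) ≤ C.intA (G * s.lam) := C.intA_mono fun χ => by
    have e : f χ * f χ = s.R i χ * G χ := by
      rw [hf, ← hrr, hGdef]
      simp only [ContinuousMap.mul_apply]
      ring
    simp only [ContinuousMap.mul_apply]
    rw [e, mul_comm (G χ)]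
    exact mul_le_mul_of_nonneg_left
      (mul_le_of_le_one_left (hG0 χ) ((h.R_le i χ).trans (by norm_num))) (h.lam_nonneg χ)
  have n1 := h.mu_nonneg 1 i hG0
  have n2 := h.mu_nonneg (-1) i hG0
  have n3 : 0 ≤ C.intA (G * (s.Lam * s.e i)) :=
    C.intA_nonneg fun χ => mul_nonneg (hG0 χ) (mul_nonneg (h.Lam_nonneg χ) (h.e_nonneg i χ))
  have n4 : 0 ≤ C.intA (G * s.lam) :=
    C.intA_nonneg fun χ => mul_nonneg (hG0 χ) (h.lam_nonneg χ)
  linarith

end St

end Vale.Agent.P078.Expected
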