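import Vale.Agent.P078.Expected.Iter.Taylor
import Vale.Agent.P078.Expected.Iter.Hahn
import Vale.Agent.P078.Expected.Iter.Quad
import Vale.Agent.P078.Expected.Norm.Kernel
import Vale.Agent.P078.Expected.Norm.Family
import Vale.Agent.P078.Expected.Norm.LossDefs

/-!
The first variation of the surplus along masked moves as a positive diagonal minus a symmetric
operator with finitely many normalising partial isometries, up to small errors.
-/

noncomputable section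

open Filter

namespace Vale.Agent.P078.Expected

universe u

variable {K : Type u} [NormedAddCommGroup K] [InnerProductSpace ℂ K] [CompleteSpace K]

namespace Ctx

variable (C : Ctx K)

/-- The state is faithful on symbols. -/
theorem eq_zero_of_intA {g : C(C.Spec, ℝ)} (hg : ∀ χ, 0 ≤ g χ) (h0 : C.intA g ≤ 0) : g = 0 := by
  set k := sqC g
  have hk : k * k = g := ContinuousMap.ext fun χ => Real.mul_self_sqrt (hg χ)
  have h1 : C.nrm (C.op k) ^ 2 = C.intA g := by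
    have h := C.tr_star_mul_self (C.op k)
    rw [(C.op_sa k).star_eq, ← map_mul, hk, ← Complex.ofReal_pow] at h
    rw [intA, h, Complex.ofReal_re]
  have h2 : C.nrm (C.op k) = 0 :=
    pow_eq_zero_iff two_ne_zero |>.1 (le_antisymm (h1.trans_le h0) (sq_nonneg _))
  have h3 : k = 0 :=
    C.op_inj (by rw [map_zero]; exact C.hsep _ (C.op_mem_M k) (norm_eq_zero.1 h2))
  rw [← hk, h3, zero_mul]

theorem intA_const_one (c : ℝ) : C.intA (c • 1) = c * ‖C.Ω‖ ^ 2 := by
  rw [← Algebra.algebraMap_eq_smul_one, C.intA_const]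

theorem symOp_apply {n : ℕ} (f : Fin n → C(C.Spec, ℝ)) {u : Fin n → K →L[ℂ] K}
    (hu : ∀ k, u k ∈ C.GN) (g : C(C.Spec, ℝ)) :
    C.symOp f u g = (1 / 2 : ℝ) • ∑ k,
      (f k * C.img (u k) g + C.img (star (u k)) (f k) * C.img (star (u k)) g) := by
  rw [symOp, smul_apply, _root_.sum_apply]
  refine congrArg _ (Finset.sum_congr rfl fun k _ => ?_)
  rw [add_apply, C.mono_apply _ (hu k), C.mono_apply _ (C.GN_star (hu k))]

theorem symOp_nonneg {n : ℕ} {f : Fin n → C(C.Spec, ℝ)} {u : Fin n → K →L[ℂ] K}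
    (hu : ∀ k, u k ∈ C.GN) (hf : ∀ k χ, 0 ≤ f k χ) {g : C(C.Spec, ℝ)} (hg : ∀ χ, 0 ≤ g χ)
    (χ : C.Spec) : 0 ≤ C.symOp f u g χ := by
  simp only [C.symOp_apply f hu, ContinuousMap.smul_apply, ContinuousMap.sum_apply,
    ContinuousMap.add_apply, ContinuousMap.mul_apply, smul_eq_mul]
  refine mul_nonneg (by norm_num) (Finset.sum_nonneg fun k _ => add_nonneg ?_ ?_)
  · exact mul_nonneg (hf k χ) (C.img_nonneg (hu k) hg χ)
  · exact mul_nonneg (C.img_nonneg (C.GN_star (hu k)) (hf k) χ)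
      (C.img_nonneg (C.GN_star (hu k)) hg χ)

theorem symOp_smul {n : ℕ} (t : ℝ) (f : Fin n → C(C.Spec, ℝ)) {u : Fin n → K →L[ℂ] K}
    (hu : ∀ k, u k ∈ C.GN) : C.symOp (fun k => t • f k) u = t • C.symOp f u := by
  refine ContinuousLinearMap.ext fun g => ?_
  rw [smul_apply, C.symOp_apply _ hu, C.symOp_apply _ hu, smul_comm t]
  congr 1
  rw [Finset.smul_sum]
  refine Finset.sum_congr rfl fun k _ => ?_
  rw [C.img_smul (C.GN_star (hu k)), smul_mul_assoc, smul_mul_assoc, smul_add]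

theorem symOp_append {m n : ℕ} (f : Fin m → C(C.Spec, ℝ)) (f' : Fin n → C(C.Spec, ℝ))
    (u : Fin m → K →L[ℂ] K) (u' : Fin n → K →L[ℂ] K) :
    C.symOp (Fin.append f f') (Fin.append u u') = C.symOp f u + C.symOp f' u' := by
  simp only [symOp, Fin.sum_univ_add, Fin.append_left, Fin.append_right, smul_add]

/-- Conjugating a symmetrised operator by a multiplication. -/
theorem symOp_conj {n : ℕ} (t : ℝ) (R : C(C.Spec, ℝ)) (f : Fin n → C(C.Spec, ℝ))
    {u : Fin n → K →L[ℂ] K} (hu : ∀ k, u k ∈ C.GN) (g : C(C.Spec, ℝ)) :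
    C.symOp (fun k => t • (R * f k * C.img (u k) R)) u g = t • (R * C.symOp f u (R * g)) := by
  rw [C.symOp_apply _ hu, C.symOp_apply _ hu, mul_smul_comm, smul_comm t]
  congr 1
  rw [Finset.mul_sum, Finset.smul_sum]
  refine Finset.sum_congr rfl fun k _ => ?_
  have hw := C.GN_star (hu k)
  have hback : C.img (star (u k)) (C.img (u k) R) = R * C.img (star (u k)) 1 := by
    have h := C.mul_img hw R 1
    rw [star_star, mul_one] at h
    exact h.symm
  have hsupp : C.img (star (u k)) 1 * C.img (star (u k)) (f k) = C.img (star (u k)) (f k) := by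
    rw [← C.img_mul hw, one_mul]
  rw [C.img_smul hw, C.img_mul hw, C.img_mul hw, hback, C.img_mul (hu k), C.img_mul hw R g,
    smul_mul_assoc, smul_mul_assoc, ← smul_add, mul_add]
  congr 2
  · ring
  · linear_combination (R * C.img (star (u k)) R * C.img (star (u k)) g) * hsupp

/-- The linear map `g ↦ E (X g X)` on real symbols. -/
def conjEr {X : K →L[ℂ] K} (hX : X ∈ C.M) : C(C.Spec, ℝ) →ₗ[ℝ] C(C.Spec, ℝ) where
  toFun g := C.Er (X * C.op g * X)
  map_add' g h := by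
    rw [map_add, mul_add, add_mul, C.Er_add (C.conj_op_mem hX g) (C.conj_op_mem hX h)]
  map_smul' t g := by
    rw [map_smul, mul_smul_comm, smul_mul_assoc, C.Er_smul _ (C.conj_op_mem hX g),
      RingHom.id_apply]

/-- The state on symbols as a linear functional. -/
def intAL : C(C.Spec, ℝ) →ₗ[ℝ] ℝ where
  toFun := C.intA
  map_add' := C.intA_add
  map_smul' := C.intA_smul

/-- The form `∫ D g · D h` of a linear map. -/
def sqB (D : C(C.Spec, ℝ) →ₗ[ℝ] C(C.Spec, ℝ)) :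
    C(C.Spec, ℝ) →ₗ[ℝ] C(C.Spec, ℝ) →ₗ[ℝ] ℝ :=
  ((LinearMap.mul ℝ C(C.Spec, ℝ)).compr₂ C.intAL).compl₁₂ D D

theorem sqB_apply (D : C(C.Spec, ℝ) →ₗ[ℝ] C(C.Spec, ℝ)) (g h : C(C.Spec, ℝ)) :
    C.sqB D g h = C.intA (D g * D h) := rfl

/-- The summable form `∫ D g · D h` of a positive linear map. -/
def sqForm (D : C(C.Spec, ℝ) →ₗ[ℝ] C(C.Spec, ℝ))
    (hD : ∀ g : C(C.Spec, ℝ), (∀ χ, 0 ≤ g χ) → ∀ χ, 0 ≤ D g χ) : Form C :=
  Form.ofPos (C.sqB D) fun g h hg hh =>
    C.intA_nonneg fun χ => mul_nonneg (hD g hg χ) (hD h hh χ)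

theorem sqForm_B (D : C(C.Spec, ℝ) →ₗ[ℝ] C(C.Spec, ℝ)) (hD) (g h : C(C.Spec, ℝ)) :
    (C.sqForm D hD).B g h = C.intA (D g * D h) := rfl

theorem sqForm_symm (D : C(C.Spec, ℝ) →ₗ[ℝ] C(C.Spec, ℝ)) (hD) : (C.sqForm D hD).Symm :=
  fun g h => by rw [C.sqForm_B, C.sqForm_B, mul_comm]

theorem sqForm_psd (D : C(C.Spec, ℝ) →ₗ[ℝ] C(C.Spec, ℝ)) (hD) : (C.sqForm D hD).PSD :=
  fun g => by rw [C.sqForm_B]; exact C.intA_nonneg fun χ => mul_self_nonneg _

theorem sqForm_pair_one_le (D : C(C.Spec, ℝ) →ₗ[ℝ] C(C.Spec, ℝ)) (hD) {ε : ℝ}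
    (h : ∀ᶠ s : Part C in atTop, ∑ c, C.intA ((D (s.c c)) ^ 2) ≤ ε) :
    (C.sqForm D hD).pair 1 1 ≤ ε := by
  refine le_of_tendsto ((C.sqForm D hD).tendsto_pairS C.one_mem_Ops C.one_mem_Ops) ?_
  filter_upwards [h] with s hs
  refine le_trans (le_of_eq (Finset.sum_congr rfl fun c _ => ?_)) hs
  rw [one_apply_eq_self, C.sqForm_B, sq]

end Ctx

namespace St

variable {C : Ctx K} {P : Par} {s : St C P} {y0 : K →L[ℂ] K} {gam τ : ℝ}

/-- The first variation of the load of one colour, as a linear map. -/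
def Inv.load1 (h : s.Inv y0) (i : Fin P.r) : C(C.Spec, ℝ) →ₗ[ℝ] C(C.Spec, ℝ) :=
  C.conjEr (h.Z_mem 1 i) + C.conjEr (h.Z_mem (-1) i) + (P.z ^ 2)⁻¹ • C.conjEr (h.y_mem i)

theorem Inv.load1_apply (h : s.Inv y0) (i : Fin P.r) (g : C(C.Spec, ℝ)) :
    h.load1 i g = s.e1 i g + s.l1 i g := rfl

theorem Inv.load1_nonneg (h : s.Inv y0) (i : Fin P.r) {g : C(C.Spec, ℝ)} (hg : ∀ χ, 0 ≤ g χ)
    (χ : C.Spec) : 0 ≤ h.load1 i g χ :=
  add_nonneg (add_nonneg
    (C.Er_nonneg (sandwich_mem (h.Z_mem 1 i) g) (sandwich_nonneg (h.Z_sa 1 i) hg) χ)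
    (C.Er_nonneg (sandwich_mem (h.Z_mem (-1) i) g) (sandwich_nonneg (h.Z_sa (-1) i) hg) χ))
    (mul_nonneg (inv_nonneg.2 (sq_nonneg _))
      (C.Er_nonneg (sandwich_mem (h.y_mem i) g) (sandwich_nonneg (h.y_sa i) hg) χ))

/-- The normalisers below the first variation of the load, close to it along fine partitions. -/
theorem Inv.exists_loadFamily (h : s.Inv y0) (i : Fin P.r) {ε : ℝ} (hε : 0 < ε) :
    ∃ (n : ℕ) (f : Fin n → C(C.Spec, ℝ)) (u : Fin n → K →L[ℂ] K), (∀ k, u k ∈ C.GN) ∧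
      (∀ k χ, 0 ≤ f k χ) ∧
      (∀ g, (∀ χ, 0 ≤ g χ) → ∀ χ, C.symOp f u g χ ≤ h.load1 i g χ) ∧
      ∀ᶠ p : Part C in atTop,
        ∑ c, C.intA ((h.load1 i (p.c c) - C.symOp f u (p.c c)) ^ 2) ≤ ε := by
  set k := (P.z ^ 2)⁻¹ with hk
  have hk0 : 0 ≤ k := inv_nonneg.2 (sq_nonneg _)
  set ε' := ε / (3 * (2 + k * k))
  have hε' : 0 < ε' := div_pos hε (by positivity)
  obtain ⟨n1, f1, u1, hu1, hf1, hb1, he1⟩ := C.exists_family (h.Z_mem 1 i) (h.Z_sa 1 i) hε'
  obtain ⟨n2, f2, u2, hu2, hf2, hb2, he2⟩ := C.exists_family (h.Z_mem (-1) i) (h.Z_sa (-1) i) hε'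
  obtain ⟨n3, f3, u3, hu3, hf3, hb3, he3⟩ := C.exists_family (h.y_mem i) (h.y_sa i) hε'
  have happ : ∀ (g : C(C.Spec, ℝ)),
      C.symOp (Fin.append (Fin.append f1 f2) fun j => k • f3 j)
        (Fin.append (Fin.append u1 u2) u3) g =
      C.symOp f1 u1 g + C.symOp f2 u2 g + k • C.symOp f3 u3 g := fun g => by
    rw [C.symOp_append, C.symOp_append, C.symOp_smul k f3 hu3]
    rfl
  refine ⟨n1 + n2 + n3, Fin.append (Fin.append f1 f2) fun j => k • f3 j,
    Fin.append (Fin.append u1 u2) u3, fun j => ?_, fun j χ => ?_, fun g hg χ => ?_, ?_⟩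
  · refine Fin.addCases (fun j => ?_) (fun j => ?_) j
    · rw [Fin.append_left]
      refine Fin.addCases (fun j => ?_) (fun j => ?_) j
      · rw [Fin.append_left]; exact hu1 j
      · rw [Fin.append_right]; exact hu2 j
    · rw [Fin.append_right]; exact hu3 j
  · refine Fin.addCases (fun j => ?_) (fun j => ?_) j
    · rw [Fin.append_left]
      refine Fin.addCases (fun j => ?_) (fun j => ?_) j
      · rw [Fin.append_left]; exact hf1 j χ
      · rw [Fin.append_right]; exact hf2 j χ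
    · rw [Fin.append_right]; exact mul_nonneg hk0 (hf3 j χ)
  · rw [happ]
    exact add_le_add (add_le_add (hb1 g hg χ) (hb2 g hg χ))
      (mul_le_mul_of_nonneg_left (hb3 g hg χ) hk0)
  filter_upwards [he1, he2, he3] with p h1 h2 h3
  have hpt : ∀ c, C.intA ((h.load1 i (p.c c) -
      C.symOp (Fin.append (Fin.append f1 f2) fun j => k • f3 j)
        (Fin.append (Fin.append u1 u2) u3) (p.c c)) ^ 2) ≤
      3 * C.intA ((C.Er (s.Z 1 i * C.op (p.c c) * s.Z 1 i) - C.symOp f1 u1 (p.c c)) ^ 2) +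
      3 * C.intA ((C.Er (s.Z (-1) i * C.op (p.c c) * s.Z (-1) i) - C.symOp f2 u2 (p.c c)) ^ 2) +
      3 * (k * k) * C.intA ((C.Er (s.y i * C.op (p.c c) * s.y i) - C.symOp f3 u3 (p.c c)) ^ 2) := by
    intro c
    rw [← C.intA_smul, ← C.intA_smul, ← C.intA_smul, ← C.intA_add, ← C.intA_add, happ,
      show h.load1 i (p.c c) = C.Er (s.Z 1 i * C.op (p.c c) * s.Z 1 i) +
        C.Er (s.Z (-1) i * C.op (p.c c) * s.Z (-1) i) +
        k • C.Er (s.y i * C.op (p.c c) * s.y i) from rfl]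
    refine C.intA_mono fun χ => ?_
    simp only [sq, ContinuousMap.mul_apply, ContinuousMap.sub_apply, ContinuousMap.smul_apply,
      ContinuousMap.add_apply, smul_eq_mul]
    generalize C.Er (s.Z 1 i * C.op (p.c c) * s.Z 1 i) χ = a1, C.symOp f1 u1 (p.c c) χ = b1,
      C.Er (s.Z (-1) i * C.op (p.c c) * s.Z (-1) i) χ = a2, C.symOp f2 u2 (p.c c) χ = b2,
      C.Er (s.y i * C.op (p.c c) * s.y i) χ = a3, C.symOp f3 u3 (p.c c) χ = b3
    linarith [sq_nonneg (a1 - b1 - (a2 - b2)), sq_nonneg (a1 - b1 - k * (a3 - b3)),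
      sq_nonneg (a2 - b2 - k * (a3 - b3))]
  refine (Finset.sum_le_sum fun c _ => hpt c).trans ?_
  rw [Finset.sum_add_distrib, Finset.sum_add_distrib, ← Finset.mul_sum, ← Finset.mul_sum,
    ← Finset.mul_sum]
  have e : ε' * (3 * (2 + k * k)) = ε := div_mul_cancel₀ ε (by positivity)
  have := mul_le_mul_of_nonneg_left h3 (show (0 : ℝ) ≤ 3 * (k * k) by positivity)
  linarith

/-- The size of the first variation of the load along masked moves. -/
theorem Inv.abs_load1_le (h : s.Inv y0) (hg : 0 < gam) {i : Fin P.r}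
    (hi : ‖s.B i‖ ≤ P.z - gam) (τ : ℝ) {g : C(C.Spec, ℝ)} {B : ℝ} (hB : ∀ χ, |g χ| ≤ B)
    (χ : C.Spec) :
    |h.load1 i (s.Rm τ i * g) χ| ≤ B * (P.z / gam + 1) * (s.e i χ + s.l i χ) := by
  have hB0 : 0 ≤ B := (abs_nonneg (g χ)).trans (hB χ)
  have hx : ∀ ψ, |(s.mask τ i * g) ψ| ≤ B := fun ψ => by
    rw [ContinuousMap.mul_apply, abs_mul]
    rcases h.mask_values τ i ψ with e | e <;> simp [e, hB0, hB ψ]
  have := (h.load_bounds hg hi hB0 hx χ).1
  rw [h.load1_apply, Rm, mul_assoc, ContinuousMap.add_apply]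
  exact (abs_add_le _ _).trans this

theorem Inv.w_eq_zero (h : s.Inv y0) {χ : C.Spec} (hU : s.U χ = 0) : s.w χ = 0 := by
  rw [w_apply, hU, zero_mul]

theorem Inv.Rm_eq_zero (h : s.Inv y0) (τ : ℝ) (i : Fin P.r) {χ : C.Spec} (hU : s.U χ = 0) :
    s.Rm τ i χ = 0 := by
  simp [Rm, mask, hU]

theorem Inv.mask_mul_U (h : s.Inv y0) (τ : ℝ) (i : Fin P.r) :
    s.mask τ i * s.U = s.mask τ i := by
  rw [mask, mul_comm _ s.U, ← mul_assoc, ← mul_assoc, h.U_idem]

/-- On the masked cells the coefficient of the linearisation is at least `-τ`. -/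
theorem Inv.coef_ge (h : s.Inv y0) (τ : ℝ) (i : Fin P.r) {χ : C.Spec}
    (hm : s.mask τ i χ = 1) :
    1000000 * (s.e i χ + s.l i χ) ≤ s.gainCoef i χ + τ := by
  set ψ : C(C.Spec, ℝ) := (1000000 : ℝ) • (s.e i + s.l i) - s.gainCoef i - τ • 1
  set f : C(C.Spec, ℝ) := s.mask τ i * (ψ ⊔ 0) with hf
  have hf0 : ∀ ξ, 0 ≤ f ξ := fun ξ => by
    rw [hf, ContinuousMap.mul_apply]
    refine mul_nonneg ?_ (le_max_right _ _)
    rcases h.mask_values τ i ξ with e | e <;> simp [e]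
  have hsupp : f * (s.U * (1 - s.bad τ i)) = f := by
    rw [hf, mul_right_comm, h.mask_mul_offBad]
  have hgr := h.grad_le τ i hf0 hsupp
  rw [grad_apply] at hgr
  have n1 := h.mu_nonneg 1 i hf0
  have n2 := h.mu_nonneg (-1) i hf0
  have n3 := h.muy_nonneg i hf0
  have hle : C.intA (f * s.lam * ψ + τ • (f * s.lam)) ≤
      C.intA (f * (s.Lam * (s.e i + s.l i) - s.lam * s.gainCoef i)) := by
    refine C.intA_mono fun ξ => ?_
    simp only [ψ, ContinuousMap.add_apply, ContinuousMap.mul_apply, ContinuousMap.smul_apply,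
      ContinuousMap.sub_apply, ContinuousMap.one_apply, smul_eq_mul]
    rw [Lam_apply]
    linarith [mul_nonneg (mul_nonneg (hf0 ξ) P.eps0_pos.le) (h.el_nonneg i ξ)]
  rw [C.intA_add, C.intA_smul] at hle
  have hzero : C.intA (f * s.lam * ψ) ≤ 0 := by linarith
  have hpos : ∀ ξ, 0 ≤ (f * s.lam * ψ) ξ := fun ξ => by
    simp only [hf, ContinuousMap.mul_apply, ContinuousMap.sup_apply, ContinuousMap.zero_apply]
    have hmk : 0 ≤ s.mask τ i ξ := by rcases h.mask_values τ i ξ with e | e <;> simp [e]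
    rcases le_total (ψ ξ) 0 with hn | hn
    · rw [max_eq_right hn]; simp
    · rw [max_eq_left hn]
      exact mul_nonneg (mul_nonneg (mul_nonneg hmk hn) (h.lam_nonneg ξ)) hn
  have h0 := congrArg (fun F : C(C.Spec, ℝ) => F χ) (C.eq_zero_of_intA hpos hzero)
  simp only [hf, ContinuousMap.mul_apply, hm, one_mul, ContinuousMap.sup_apply,
    ContinuousMap.zero_apply] at h0
  have hlam : 0 < s.lam χ := P.eps0_pos.trans_le (h.le_lam (h.of_mask_eq_one hm).1)
  by_contra hlt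
  have hψ : 0 < ψ χ := by
    simp only [ψ, ContinuousMap.sub_apply, ContinuousMap.smul_apply, ContinuousMap.add_apply,
      ContinuousMap.one_apply, smul_eq_mul]
    linarith [not_le.1 hlt]
  rw [max_eq_left hψ.le] at h0
  exact (mul_pos (mul_pos hψ hlam) hψ).ne' h0

/-- The diagonal of the linearisation of one colour. -/
def diagA (s : St C P) (τ : ℝ) (i : Fin P.r) : C(C.Spec, ℝ) :=
  s.Rm τ i * (s.gainCoef i - (1000000 : ℝ) • (s.e i + s.l i) + (2 * τ) • 1) + τ • 1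

theorem diagA_apply (s : St C P) (τ : ℝ) (i : Fin P.r) (χ : C.Spec) :
    s.diagA τ i χ = s.Rm τ i χ *
      (s.gainCoef i χ - 1000000 * (s.e i χ + s.l i χ) + 2 * τ * 1) + τ * 1 := rfl

theorem Inv.diagA_bounds (h : s.Inv y0) (hτ : 0 ≤ τ) (hτ1 : τ ≤ 1) (i : Fin P.r) (χ : C.Spec) :
    τ ≤ s.diagA τ i χ ∧ s.diagA τ i χ ≤ 2 := by
  rw [diagA_apply]
  rcases h.mask_values τ i χ with hm | hm
  · have : s.Rm τ i χ = 0 := by simp [Rm, hm]
    rw [this]
    constructor <;> linarith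
  · have h1 := h.coef_ge τ i hm
    have h2 := h.gainCoef_le i χ
    have h3 := h.el_nonneg i χ
    have h4 : s.Rm τ i χ = s.R i χ := by simp [Rm, hm]
    have h5 := R_le_of_not_finishable (h.of_mask_eq_one hm).2.1 i
    have h6 := h.R_nonneg i χ
    rw [h4]
    constructor <;> nlinarith

/-- The subinvariance of the linearised operator. -/
theorem Inv.sub_linear (h : s.Inv y0) (hτ : 0 ≤ τ) (δ : ℝ) (i : Fin P.r)
    {T : C(C.Spec, ℝ) → C(C.Spec, ℝ)}
    (hT : ∀ g, (∀ χ, 0 ≤ g χ) → ∀ χ, T g χ ≤ h.load1 i g χ) {g : C(C.Spec, ℝ)}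
    (hg : ∀ χ, 0 ≤ g χ) :
    C.intA ((s.lam + δ • (1 - s.U)) * ((1000000 : ℝ) • (s.Rm τ i * T (s.Rm τ i * g)))) +
        τ * C.intA ((s.lam + δ • (1 - s.U)) * g) ≤
      C.intA ((s.lam + δ • (1 - s.U)) * (s.diagA τ i * g)) := by
  set f := s.Rm τ i * g with hf
  have hf0 : ∀ χ, 0 ≤ f χ := fun χ => mul_nonneg (h.Rm_nonneg τ i χ) (hg χ)
  have hoff : ∀ χ, δ * (1 - s.U χ) * s.Rm τ i χ = 0 := fun χ => by
    rcases h.U_values χ with e | e
    · rw [h.Rm_eq_zero τ i e, mul_zero]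
    · rw [e, sub_self, mul_zero, zero_mul]
  have hm := fun Z (hZ : Z ∈ C.M) (hs : IsSelfAdjoint Z) =>
    (C.re_tr_op_mul (sandwich_mem hZ f) (sandwich_sa hs f) (s.u i)).symm
  have hmu : C.intA (s.u i * h.load1 i f) = s.mu 1 i f + s.mu (-1) i f + s.muy i f := by
    rw [h.load1_apply, e1, l1, mul_add, mul_add, mul_smul_comm, C.intA_add, C.intA_add,
      C.intA_smul, hm _ (h.Z_mem 1 i) (h.Z_sa 1 i), hm _ (h.Z_mem (-1) i) (h.Z_sa (-1) i),
      hm _ (h.y_mem i) (h.y_sa i)]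
    simp only [mu, muy, mul_assoc]
  have hup : C.intA ((s.lam + δ • (1 - s.U)) * ((1000000 : ℝ) • (s.Rm τ i * T f))) ≤
      C.intA (s.u i * h.load1 i f) := by
    refine C.intA_mono fun χ => ?_
    simp only [ContinuousMap.add_apply, ContinuousMap.mul_apply, ContinuousMap.smul_apply,
      ContinuousMap.sub_apply, ContinuousMap.one_apply, smul_eq_mul]
    have hu : 1000000 * s.lam χ * s.Rm τ i χ ≤ s.u i χ := by
      rw [u_apply, Lam_apply]
      have h1 := mul_le_mul_of_nonneg_left (h.Rm_le_R τ i χ) (h.lam_nonneg χ)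
      linarith [P.eps0_pos, mul_nonneg P.eps0_pos.le (h.R_nonneg i χ)]
    have h2 := mul_le_mul_of_nonneg_right hu (h.load1_nonneg i hf0 χ)
    have h3 := mul_le_mul_of_nonneg_left (hT f hf0 χ)
      (mul_nonneg (mul_nonneg (by norm_num : (0 : ℝ) ≤ 1000000) (h.lam_nonneg χ))
        (h.Rm_nonneg τ i χ))
    have h4 : δ * (1 - s.U χ) * s.Rm τ i χ * (1000000 * T f χ) = 0 := by rw [hoff, zero_mul]
    linarith
  have hgr := h.grad_le τ i hf0 (by
    conv_rhs => rw [hf, Rm]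
    rw [hf, Rm]
    linear_combination (s.R i * g) * h.mask_mul_offBad τ i)
  rw [grad_apply, ← hmu] at hgr
  have hrhs : τ * C.intA (f * s.lam) -
      C.intA (f * (s.Lam * (s.e i + s.l i) - s.lam * s.gainCoef i)) +
        τ * C.intA ((s.lam + δ • (1 - s.U)) * g) ≤
      C.intA ((s.lam + δ • (1 - s.U)) * (s.diagA τ i * g)) := by
    rw [← C.intA_smul, ← C.intA_smul, ← C.intA_diff, ← C.intA_add]
    refine C.intA_mono fun χ => ?_
    simp only [hf, diagA, ContinuousMap.add_apply, ContinuousMap.mul_apply,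
      ContinuousMap.smul_apply, ContinuousMap.sub_apply, ContinuousMap.one_apply, smul_eq_mul]
    rw [Lam_apply]
    have hp := mul_nonneg (h.Rm_nonneg τ i χ) (hg χ)
    have p1 := mul_nonneg (mul_nonneg hp hτ) (h.lam_nonneg χ)
    have p2 := mul_nonneg (mul_nonneg hp P.eps0_pos.le) (h.el_nonneg i χ)
    have p3 : δ * (1 - s.U χ) * s.Rm τ i χ *
        (g χ * (s.gainCoef i χ - 1000000 * (s.e i χ + s.l i χ) + 2 * τ)) = 0 := by
      rw [hoff, zero_mul]
    linarith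
  linarith

/-- The first variation of the surplus along a masked move, split. -/
theorem Inv.psi1_split (h : s.Inv y0) (τ : ℝ) (i : Fin P.r) (T : C(C.Spec, ℝ) → C(C.Spec, ℝ))
    (g : C(C.Spec, ℝ)) (χ : C.Spec) :
    s.psi1 i (s.Rm τ i * g) χ =
      (s.diagA τ i χ * g χ - 1000000 * (s.Rm τ i χ * T (s.Rm τ i * g) χ)) +
      -((2 * τ * s.Rm τ i χ + τ) * g χ) +
      -(1000000 * (s.R i χ * (1 - s.mask τ i χ) * h.load1 i (s.Rm τ i * g) χ)) +
      -(1000000 * (s.Rm τ i χ * (h.load1 i (s.Rm τ i * g) χ - T (s.Rm τ i * g) χ))) := by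
  have hR : s.Rm τ i χ = s.R i χ * s.mask τ i χ := rfl
  simp only [psi1, h.load1_apply, diagA_apply, ContinuousMap.sub_apply, ContinuousMap.mul_apply,
    ContinuousMap.smul_apply, ContinuousMap.add_apply, smul_eq_mul, hR]
  ring

/-- The loads on the cells left out of a mask, weighted by the cube of the barrier. -/
theorem Inv.offMask_le (h : s.Inv y0) (hτ : 0 < τ) {d : ℝ} (hd : 0 ≤ d) (i : Fin P.r)
    (hfin : C.intA (s.U * s.finishable) ≤ d) (hbad : s.grad i (s.R i * s.bad τ i) ≤ d) :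
    C.intA (s.w * s.w * s.w * (1 - s.mask τ i) *
        (((1000000 : ℝ) • (s.R i * (s.e i + s.l i))) * ((1000000 : ℝ) • (s.R i * (s.e i + s.l i))))) ≤
      P.r / 2 * ((2 / P.η) ^ 3 * (P.r / 2) + 2 / P.η) * ((1 + 1 / τ) * d) := by
  set b : C(C.Spec, ℝ) := s.R i * s.bad τ i with hb
  have hb0 : ∀ χ, 0 ≤ b χ := fun χ => mul_nonneg (h.R_nonneg i χ) (h.bad_le τ i χ).1
  have hrate : C.intA (b * s.lam) ≤ d / τ := by
    have h1 := h.le_grad_bad τ i (g := s.R i) (h.R_nonneg i)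
    rw [mul_comm (s.bad τ i) (s.R i), ← hb] at h1
    rw [le_div_iff₀ hτ]
    linarith
  have hload : C.intA (b * s.lam * ((1000000 : ℝ) • (s.e i + s.l i))) ≤ (1 + 1 / τ) * d := by
    have hgr := hbad
    rw [grad_apply] at hgr
    have hle : C.intA (b * s.lam * ((1000000 : ℝ) • (s.e i + s.l i)) - b * s.lam) ≤
        C.intA (b * (s.Lam * (s.e i + s.l i) - s.lam * s.gainCoef i)) := by
      refine C.intA_mono fun χ => ?_
      simp only [ContinuousMap.mul_apply, ContinuousMap.sub_apply, ContinuousMap.smul_apply,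
        ContinuousMap.add_apply, smul_eq_mul]
      rw [Lam_apply]
      linarith [mul_le_mul_of_nonneg_left (h.gainCoef_le i χ)
          (mul_nonneg (hb0 χ) (h.lam_nonneg χ)),
        mul_nonneg (mul_nonneg (hb0 χ) P.eps0_pos.le) (h.el_nonneg i χ)]
    rw [C.intA_diff] at hle
    have e : (1 + 1 / τ) * d = d + d / τ := by ring
    linarith [h.mu_nonneg 1 i hb0, h.mu_nonneg (-1) i hb0, h.muy_nonneg i hb0]
  have hη := P.hη
  have hr := P.r_pos
  calc C.intA (s.w * s.w * s.w * (1 - s.mask τ i) *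
        (((1000000 : ℝ) • (s.R i * (s.e i + s.l i))) * ((1000000 : ℝ) • (s.R i * (s.e i + s.l i)))))
      ≤ C.intA (((2 / P.η) ^ 3 * (P.r / 2 * (P.r / 2))) • (s.U * s.finishable) +
          (2 / P.η * (P.r / 2)) • (b * s.lam * ((1000000 : ℝ) • (s.e i + s.l i)))) := by
        refine C.intA_mono fun χ => ?_
        simp only [ContinuousMap.mul_apply, ContinuousMap.sub_apply, ContinuousMap.one_apply,
          ContinuousMap.smul_apply, ContinuousMap.add_apply, smul_eq_mul]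
        have hw0 := h.w_nonneg χ
        have hw := h.w_le χ
        have hU0 : 0 ≤ s.U χ := by rcases h.U_values χ with e | e <;> simp [e]
        have hf0 : 0 ≤ s.finishable χ := by rcases finishable_values (s := s) χ with e | e <;> simp [e]
        have hA : 0 ≤ b χ * s.lam χ * (1000000 * (s.e i χ + s.l i χ)) :=
          mul_nonneg (mul_nonneg (hb0 χ) (h.lam_nonneg χ))
            (mul_nonneg (by norm_num) (h.el_nonneg i χ))
        have hF : 0 ≤ s.U χ * s.finishable χ := mul_nonneg hU0 hf0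
        have t1 := mul_nonneg (show (0 : ℝ) ≤ (2 / P.η) ^ 3 * (P.r / 2 * (P.r / 2)) by positivity) hF
        have t2 := mul_nonneg (show (0 : ℝ) ≤ 2 / P.η * (P.r / 2) by positivity) hA
        rcases h.U_values χ with hu | hu
        · rw [h.w_eq_zero hu]
          simp only [zero_mul]
          linarith
        have hq := h.R_el_le hu i
        set q := 1000000 * (s.R i χ * (s.e i χ + s.l i χ)) with hqdef
        have hq0 : 0 ≤ q :=
          mul_nonneg (by norm_num) (mul_nonneg (h.R_nonneg i χ) (h.el_nonneg i χ))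
        rcases finishable_values (s := s) χ with hf | hf
        · rcases idem_values (h.bad_idem τ i) χ with hbd | hbd
          · have : s.mask τ i χ = 1 := by simp [mask, hu, hf, hbd]
            rw [this, sub_self, mul_zero, zero_mul]
            linarith
          · have hmk : s.mask τ i χ = 0 := by simp [mask, hbd]
            rw [hmk, sub_zero, mul_one]
            have hbe : b χ = s.R i χ := by simp [hb, hbd]
            rw [hbe, lam_apply] at t2 ⊢
            calc s.w χ * s.w χ * s.w χ * (q * q) ≤ 2 / P.η * (s.w χ * s.w χ) * (P.r / 2 * q) := by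
                  refine mul_le_mul ?_ (mul_le_mul_of_nonneg_right hq hq0) (mul_nonneg hq0 hq0)
                    (mul_nonneg (by positivity) (mul_nonneg hw0 hw0))
                  linarith [mul_le_mul_of_nonneg_right hw (mul_nonneg hw0 hw0)]
              _ = 2 / P.η * (P.r / 2) * (s.R i χ * (s.w χ * s.w χ) *
                    (1000000 * (s.e i χ + s.l i χ))) := by rw [hqdef]; ring
              _ ≤ _ := le_add_of_nonneg_left t1
        · have hmk : s.mask τ i χ = 0 := by simp [mask, hf]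
          rw [hmk, sub_zero, mul_one, hu, hf, one_mul, mul_one]
          have h3 : s.w χ * s.w χ * s.w χ ≤ (2 / P.η) ^ 3 := by
            have := pow_le_pow_left₀ hw0 hw 3
            linarith
          have h4 := mul_le_mul h3 (mul_le_mul hq hq hq0 (by linarith)) (mul_nonneg hq0 hq0)
            (by positivity)
          linarith
    _ ≤ _ := by
        rw [C.intA_add, C.intA_smul, C.intA_smul]
        have h1 := mul_le_mul_of_nonneg_left hfin
          (show (0 : ℝ) ≤ (2 / P.η) ^ 3 * (P.r / 2 * (P.r / 2)) by positivity)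
        have h2 := mul_le_mul_of_nonneg_left hload (show (0 : ℝ) ≤ 2 / P.η * (P.r / 2) by positivity)
        have h3 : d ≤ (1 + 1 / τ) * d :=
          le_mul_of_one_le_left hd (le_add_of_nonneg_right (by positivity))
        have h4 := mul_le_mul_of_nonneg_left h3
          (show (0 : ℝ) ≤ (2 / P.η) ^ 3 * (P.r / 2 * (P.r / 2)) by positivity)
        linarith

/-- The constant of the linearisation. -/
def linConst (C : Ctx K) (P : Par) (gam : ℝ) : ℝ :=
  16 * P.r ^ 2 * (2 / P.η) ^ 3 * ‖C.Ω‖ ^ 2 +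
    4 * P.r ^ 2 * (P.z / gam + 1) ^ 2 * (P.r / 2 * ((2 / P.η) ^ 3 * (P.r / 2) + 2 / P.η)) +
    4 * P.r * ((2 / P.η) ^ 3 * 1000000 ^ 2) + (2 + (P.z / gam + 1) * (P.r / 2))

/-- The squared first variation against its linearisation, its defect and the loads left out. -/
theorem Inv.sq_linear_le (h : s.Inv y0) (hg : 0 < gam) (hgap : ∀ i, ‖s.B i‖ ≤ P.z - gam)
    (hτ : 0 < τ) (hτ1 : τ ≤ 1) (T : Fin P.r → C(C.Spec, ℝ) → C(C.Spec, ℝ)) {d B : ℝ}
    (hd : 0 ≤ d) (hfin : C.intA (s.U * s.finishable) ≤ d)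
    (hbad : ∀ i, s.grad i (s.R i * s.bad τ i) ≤ d) {g : Fin P.r → C(C.Spec, ℝ)}
    (hB : ∀ j χ, |g j χ| ≤ B) :
    s.sqTerm (fun j => s.Rm τ j * g j) ≤
      4 * C.intA (s.w * s.w * s.w *
        ((∑ j, (s.diagA τ j * g j - (1000000 : ℝ) • (s.Rm τ j * T j (s.Rm τ j * g j)))) *
          (∑ j, (s.diagA τ j * g j - (1000000 : ℝ) • (s.Rm τ j * T j (s.Rm τ j * g j)))))) +
      linConst C P gam * (∑ j, C.intA ((h.load1 j (s.Rm τ j * g j) - T j (s.Rm τ j * g j)) *
        (h.load1 j (s.Rm τ j * g j) - T j (s.Rm τ j * g j)))) +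
      linConst C P gam * B ^ 2 * (τ ^ 2 + (1 + 1 / τ) * d) := by
  set c := P.z / gam + 1 with hc
  set W0 : ℝ := (2 / P.η) ^ 3 with hW0
  have hη := P.hη
  have hr := P.r_pos
  have hz := P.z_pos
  have hc0 : 0 ≤ c := by positivity
  have hτd : 0 ≤ (1 + 1 / τ) * d := by positivity
  set Lg : C(C.Spec, ℝ) :=
    ∑ j, (s.diagA τ j * g j - (1000000 : ℝ) • (s.Rm τ j * T j (s.Rm τ j * g j))) with hLg
  set Df : Fin P.r → C(C.Spec, ℝ) :=
    fun j => h.load1 j (s.Rm τ j * g j) - T j (s.Rm τ j * g j) with hDf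
  set Off : Fin P.r → C(C.Spec, ℝ) := fun j => s.w * s.w * s.w * (1 - s.mask τ j) *
    (((1000000 : ℝ) • (s.R j * (s.e j + s.l j))) * ((1000000 : ℝ) • (s.R j * (s.e j + s.l j))))
    with hOff
  have hpt : ∀ χ, (s.w * s.w * s.w * ((∑ j, s.psi1 j (s.Rm τ j * g j)) *
      (∑ j, s.psi1 j (s.Rm τ j * g j)))) χ ≤
      ((4 : ℝ) • (s.w * s.w * s.w * (Lg * Lg)) +
        (16 * (P.r : ℝ) ^ 2 * W0 * B ^ 2 * τ ^ 2) • (1 : C(C.Spec, ℝ)) +
        (4 * P.r * B ^ 2 * c ^ 2) • ∑ j, Off j +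
        (4 * P.r * (W0 * 1000000 ^ 2)) • ∑ j, Df j * Df j : C(C.Spec, ℝ)) χ := by
    intro χ
    simp only [hOff, hDf, ContinuousMap.mul_apply, ContinuousMap.sum_apply, ContinuousMap.add_apply,
      ContinuousMap.smul_apply, ContinuousMap.sub_apply, ContinuousMap.one_apply, smul_eq_mul]
    set w3 := s.w χ * s.w χ * s.w χ
    have hw0 := h.w_nonneg χ
    have hw3 : 0 ≤ w3 := mul_nonneg (mul_nonneg hw0 hw0) hw0
    have hw3' : w3 ≤ W0 := by
      have := pow_le_pow_left₀ hw0 (h.w_le χ) 3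
      simp only [hW0, w3]
      linarith
    set a1 := ∑ j, -((2 * τ * s.Rm τ j χ + τ) * g j χ) with ha1
    set a2 := ∑ j, -(1000000 * (s.R j χ * (1 - s.mask τ j χ) *
      h.load1 j (s.Rm τ j * g j) χ)) with ha2
    set a3 := ∑ j, -(1000000 * (s.Rm τ j χ *
      (h.load1 j (s.Rm τ j * g j) χ - T j (s.Rm τ j * g j) χ))) with ha3
    have hsum : ∑ j, s.psi1 j (s.Rm τ j * g j) χ = Lg χ + a1 + a2 + a3 := by
      rw [hLg, ha1, ha2, ha3, ContinuousMap.sum_apply, ← Finset.sum_add_distrib,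
        ← Finset.sum_add_distrib, ← Finset.sum_add_distrib]
      refine Finset.sum_congr rfl fun j _ => ?_
      rw [h.psi1_split τ j (T j)]
      simp only [ContinuousMap.sub_apply, ContinuousMap.mul_apply, ContinuousMap.smul_apply,
        smul_eq_mul]
    have hfour : ∀ a b c d : ℝ, (a + b + c + d) * (a + b + c + d) ≤
        4 * (a * a + b * b + c * c + d * d) := fun a b c d => by
      linarith [sq_nonneg (a - b), sq_nonneg (a - c), sq_nonneg (a - d), sq_nonneg (b - c),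
        sq_nonneg (b - d), sq_nonneg (c - d)]
    have hcs : ∀ x : Fin P.r → ℝ, (∑ j, x j) * (∑ j, x j) ≤ P.r * ∑ j, x j * x j := fun x => by
      have := sq_sum_le_card_mul_sum_sq (s := Finset.univ) (f := x)
      simpa [sq] using this
    have b1 : w3 * (a1 * a1) ≤ 4 * (P.r : ℝ) ^ 2 * W0 * B ^ 2 * τ ^ 2 := by
      have hj : ∀ j, -((2 * τ * s.Rm τ j χ + τ) * g j χ) * -((2 * τ * s.Rm τ j χ + τ) * g j χ) ≤
          (2 * τ * B) * (2 * τ * B) := fun j => by
        have := h.Rm_le τ j χ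
        have := h.Rm_nonneg τ j χ
        have hb : |(2 * τ * s.Rm τ j χ + τ) * g j χ| ≤ 2 * τ * B := by
          rw [abs_mul]
          refine mul_le_mul ?_ (hB j χ) (abs_nonneg _) (by linarith)
          rw [abs_of_nonneg (by positivity)]
          nlinarith
        have := mul_self_le_mul_self (abs_nonneg _) hb
        rw [abs_mul_abs_self] at this
        linarith
      have hle := (hcs _).trans (mul_le_mul_of_nonneg_left
        (Finset.sum_le_sum fun j _ => hj j) hr.le)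
      rw [← ha1] at hle
      simp only [Finset.sum_const, Finset.card_univ, Fintype.card_fin, nsmul_eq_mul] at hle
      exact (mul_le_mul hw3' hle (mul_self_nonneg a1) (by positivity)).trans_eq (by ring)
    have b2 : w3 * (a2 * a2) ≤ P.r * B ^ 2 * c ^ 2 *
        ∑ j, w3 * (1 - s.mask τ j χ) * (1000000 * (s.R j χ * (s.e j χ + s.l j χ)) *
          (1000000 * (s.R j χ * (s.e j χ + s.l j χ)))) := by
      refine (mul_le_mul_of_nonneg_left (hcs _) hw3).trans ?_
      rw [Finset.mul_sum, Finset.mul_sum, Finset.mul_sum]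
      refine Finset.sum_le_sum fun j _ => ?_
      have hl := h.abs_load1_le hg (hgap j) τ (hB j) χ
      rw [← hc] at hl
      have hl2 := mul_self_le_mul_self (abs_nonneg _) hl
      rw [abs_mul_abs_self] at hl2
      rcases h.mask_values τ j χ with hm | hm <;> rw [hm]
      · have := mul_le_mul_of_nonneg_left hl2 (mul_nonneg (mul_nonneg hw3 hr.le)
          (mul_self_nonneg (1000000 * s.R j χ)))
        linarith
      · simp
    have b3 : w3 * (a3 * a3) ≤ P.r * (W0 * 1000000 ^ 2) *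
        ∑ j, (h.load1 j (s.Rm τ j * g j) χ - T j (s.Rm τ j * g j) χ) *
          (h.load1 j (s.Rm τ j * g j) χ - T j (s.Rm τ j * g j) χ) := by
      refine (mul_le_mul hw3' (hcs _) (mul_self_nonneg a3) (by positivity)).trans ?_
      rw [Finset.mul_sum, Finset.mul_sum, Finset.mul_sum]
      refine Finset.sum_le_sum fun j _ => ?_
      have hR : s.Rm τ j χ * s.Rm τ j χ ≤ 1 := by
        nlinarith [h.Rm_le τ j χ, h.Rm_nonneg τ j χ]
      have := mul_le_mul_of_nonneg_right hR (mul_nonneg (mul_nonneg (mul_nonneg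
        (show 0 ≤ W0 by positivity) hr.le) (by positivity : (0 : ℝ) ≤ 1000000 ^ 2))
        (mul_self_nonneg (h.load1 j (s.Rm τ j * g j) χ - T j (s.Rm τ j * g j) χ)))
      linarith
    rw [hsum]
    have := mul_le_mul_of_nonneg_left (hfour (Lg χ) a1 a2 a3) hw3
    linarith
  refine (C.intA_mono hpt).trans ?_
  rw [C.intA_add, C.intA_add, C.intA_add, C.intA_smul, C.intA_const_one, C.intA_smul,
    C.intA_smul, C.intA_sum, C.intA_sum]
  have hoff : ∑ j, C.intA (Off j) ≤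
      P.r * (P.r / 2 * (W0 * (P.r / 2) + 2 / P.η) * ((1 + 1 / τ) * d)) := by
    refine (Finset.sum_le_sum fun j _ => h.offMask_le hτ hd j hfin (hbad j)).trans_eq ?_
    simp only [Finset.sum_const, Finset.card_univ, Fintype.card_fin, nsmul_eq_mul, hW0]
  have hoff' := mul_le_mul_of_nonneg_left hoff
    (show (0 : ℝ) ≤ 4 * P.r * B ^ 2 * c ^ 2 by positivity)
  have hD0 : 0 ≤ ∑ j, C.intA (Df j * Df j) :=
    Finset.sum_nonneg fun j _ => C.intA_nonneg fun χ => mul_self_nonneg _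
  set k1 := 16 * (P.r : ℝ) ^ 2 * W0 * ‖C.Ω‖ ^ 2
  set k2 := 4 * (P.r : ℝ) ^ 2 * c ^ 2 * (P.r / 2 * (W0 * (P.r / 2) + 2 / P.η))
  set k3 := 4 * (P.r : ℝ) * (W0 * 1000000 ^ 2)
  have hk : linConst C P gam = k1 + k2 + k3 + (2 + c * (P.r / 2)) := rfl
  have p1 : 0 ≤ k1 := by positivity
  have p2 : 0 ≤ k2 := by positivity
  have p3 : 0 ≤ k3 := by positivity
  have p4 : 0 ≤ 2 + c * (P.r / 2) := by positivity
  have q1 := mul_le_mul_of_nonneg_right (show k1 ≤ linConst C P gam by linarith)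
    (show 0 ≤ B ^ 2 * τ ^ 2 by positivity)
  have q2 := mul_le_mul_of_nonneg_right (show k2 ≤ linConst C P gam by linarith)
    (show 0 ≤ B ^ 2 * ((1 + 1 / τ) * d) by positivity)
  have q3 := mul_le_mul_of_nonneg_right (show k3 ≤ linConst C P gam by linarith) hD0
  simp only [k1, k2, k3, hDf] at q1 q2 q3 ⊢
  linarith

/-- The operator of the linearisation is bounded uniformly in the state. -/
theorem Inv.norm_linear_le (h : s.Inv y0) (hg : 0 < gam) {j : Fin P.r}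
    (hj : ‖s.B j‖ ≤ P.z - gam) (hτ : 0 ≤ τ) (hτ1 : τ ≤ 1)
    (T : C.Op) (hpos : ∀ q, (∀ χ, 0 ≤ q χ) → ∀ χ, 0 ≤ T q χ)
    (hle : ∀ q, (∀ χ, 0 ≤ q χ) → ∀ χ, T q χ ≤ h.load1 j q χ) (g : C(C.Spec, ℝ)) :
    ‖s.diagA τ j * g - (1000000 : ℝ) • (s.Rm τ j * T (s.Rm τ j * g))‖ ≤
      (2 + (P.z / gam + 1) * (P.r / 2)) * ‖g‖ := by
  have hz := P.z_pos
  have hr := P.r_pos
  have hgb : ∀ ψ, |g ψ| ≤ ‖g‖ := fun ψ => g.norm_coe_le_norm ψ
  refine (ContinuousMap.norm_le _ (by positivity)).2 fun χ => ?_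
  simp only [ContinuousMap.sub_apply, ContinuousMap.mul_apply, ContinuousMap.smul_apply,
    smul_eq_mul, Real.norm_eq_abs]
  have ha : |s.diagA τ j χ * g χ| ≤ 2 * ‖g‖ := by
    obtain ⟨h1, h2⟩ := h.diagA_bounds hτ hτ1 j χ
    rw [abs_mul, abs_of_nonneg (hτ.trans h1)]
    exact mul_le_mul h2 (hgb χ) (abs_nonneg _) zero_le_two
  have hb : |1000000 * (s.Rm τ j χ * T (s.Rm τ j * g) χ)| ≤
      (P.z / gam + 1) * (P.r / 2) * ‖g‖ := by
    rcases h.U_values χ with hu0 | hu0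
    · rw [h.Rm_eq_zero τ j hu0, zero_mul, mul_zero, abs_zero]
      positivity
    set M : C(C.Spec, ℝ) := s.Rm τ j * (‖g‖ • 1) with hM
    have up : ∀ q : C(C.Spec, ℝ), (∀ ψ, |q ψ| ≤ ‖g‖) → T (s.Rm τ j * q) χ ≤ h.load1 j M χ := by
      intro q hq
      have h1 := hpos (M - s.Rm τ j * q) (fun ψ => by
        rw [hM, ← mul_sub, ContinuousMap.mul_apply]
        refine mul_nonneg (h.Rm_nonneg τ j ψ) ?_
        simp only [ContinuousMap.sub_apply, ContinuousMap.smul_apply,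
          ContinuousMap.one_apply, smul_eq_mul]
        linarith [(abs_le.1 (hq ψ)).2]) χ
      rw [map_sub, ContinuousMap.sub_apply] at h1
      have h2 := hle M (fun ψ => by
        simp only [hM, ContinuousMap.mul_apply, ContinuousMap.smul_apply, ContinuousMap.one_apply,
          smul_eq_mul]
        exact mul_nonneg (h.Rm_nonneg τ j ψ) (by positivity)) χ
      linarith
    have h1 := up g hgb
    have h2 := up (-g) fun ψ => by rw [ContinuousMap.neg_apply, abs_neg]; exact hgb ψ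
    rw [mul_neg, map_neg, ContinuousMap.neg_apply] at h2
    have hT : |T (s.Rm τ j * g) χ| ≤ h.load1 j M χ := abs_le.2 ⟨by linarith, h1⟩
    have hl := (le_abs_self _).trans (h.abs_load1_le hg hj τ (g := ‖g‖ • 1) (B := ‖g‖)
      (fun ψ => by simp [abs_of_nonneg]) χ)
    have hq := h.R_el_le hu0 j
    rw [abs_mul, abs_mul, abs_of_pos (by norm_num : (0 : ℝ) < 1000000),
      abs_of_nonneg (h.Rm_nonneg τ j χ)]
    have h3 := mul_le_mul (h.Rm_le_R τ j χ) (hT.trans hl) (abs_nonneg _) (h.R_nonneg j χ)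
    have h4 := mul_le_mul_of_nonneg_left hq
      (show (0 : ℝ) ≤ (P.z / gam + 1) * ‖g‖ by positivity)
    linarith
  exact ((abs_sub _ _).trans (add_le_add ha hb)).trans_eq (by ring)

/-- The defect form of the linearisation of one colour. -/
theorem Inv.pullback_props (h : s.Inv y0) (τ : ℝ) (j : Fin P.r) (F : Ctx.Form C)
    (hS : F.Symm) (hP : F.PSD) {ε : ℝ} (hF : F.pair 1 1 ≤ ε) :
    (F.pullback (s.Rm τ j)).Symm ∧ (F.pullback (s.Rm τ j)).PSD ∧
      (F.pullback (s.Rm τ j)).pair 1 1 ≤ ε := by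
  refine ⟨Ctx.Form.pullback_symm hS _, fun g => hP _, ?_⟩
  rw [Ctx.Form.pair_pullback, mul_one]
  refine (Ctx.Form.pair_self_le hS hP (C.adj_mulC (s.Rm τ j))).trans ?_
  have h1 : ‖C.mulC (s.Rm τ j)‖ ≤ 1 := (C.norm_mulC_le _).trans
    ((ContinuousMap.norm_le _ zero_le_one).2 fun χ => by
      rw [Real.norm_eq_abs, abs_of_nonneg (h.Rm_nonneg τ j χ)]
      linarith [h.Rm_le τ j χ])
  exact (mul_le_of_le_one_left (F.pair_nonneg hP C.one_mem_Ops)
    (mul_le_one₀ h1 (ContinuousLinearMap.opNorm_nonneg _) h1)).trans hF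

/-- The leverage data of a linearised state. -/
def Inv.linData (h : s.Inv y0) (hτ : 0 < τ) (hτ1 : τ ≤ 1) {δ : ℝ} (hδ : 0 < δ)
    (n : Fin P.r → ℕ) (f : (j : Fin P.r) → Fin (n j) → C(C.Spec, ℝ))
    (u : (j : Fin P.r) → Fin (n j) → K →L[ℂ] K) (hu : ∀ j k, u j k ∈ C.GN)
    (hf : ∀ j k χ, 0 ≤ f j k χ)
    (hle : ∀ j g, (∀ χ, 0 ≤ g χ) → ∀ χ, C.symOp (f j) (u j) g χ ≤ h.load1 j g χ) :
    LossData C P.r where
  ζ := P.zeta
  τ := τ
  R := s.Rm τ
  a := s.diagA τ
  len := n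
  f j k := (1000000 : ℝ) • (s.Rm τ j * f j k * C.img (u j k) (s.Rm τ j))
  u := u
  lam := s.lam + δ • (1 - s.U)
  hr := Nat.cast_pos.1 P.r_pos
  hζ := P.zeta_pos
  hζ1 := by
    rw [Par.zeta, div_le_iff₀ (by linarith [P.r_pos])]
    linarith [P.hSr, P.hS]
  hτ := hτ
  R_nonneg := h.Rm_nonneg τ
  R_le := h.Rm_le τ
  a_lower j χ := (h.diagA_bounds hτ.le hτ1 j χ).1
  a_le j χ := (h.diagA_bounds hτ.le hτ1 j χ).2
  u_mem := hu
  f_nonneg j k χ := mul_nonneg (by norm_num) (mul_nonneg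
    (mul_nonneg (h.Rm_nonneg τ j χ) (hf j k χ))
    (C.img_nonneg (hu j k) (h.Rm_nonneg τ j) χ))
  lam_pos χ := by
    simp only [ContinuousMap.add_apply, ContinuousMap.smul_apply, ContinuousMap.sub_apply,
      ContinuousMap.one_apply, smul_eq_mul]
    rcases h.U_values χ with e | e <;> rw [e]
    · linarith [h.lam_nonneg χ]
    · linarith [P.eps0_pos.trans_le (h.le_lam e)]
  sub j g hg := by
    rw [C.symOp_conj 1000000 (s.Rm τ j) (f j) (hu j) g]
    exact h.sub_linear hτ.le δ j (hle j) hg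

theorem Inv.linData_L (h : s.Inv y0) (hτ : 0 < τ) (hτ1 : τ ≤ 1) {δ : ℝ} (hδ : 0 < δ)
    (n : Fin P.r → ℕ) (f : (j : Fin P.r) → Fin (n j) → C(C.Spec, ℝ))
    (u : (j : Fin P.r) → Fin (n j) → K →L[ℂ] K) (hu : ∀ j k, u j k ∈ C.GN)
    (hf : ∀ j k χ, 0 ≤ f j k χ)
    (hle : ∀ j g, (∀ χ, 0 ≤ g χ) → ∀ χ, C.symOp (f j) (u j) g χ ≤ h.load1 j g χ)
    (j : Fin P.r) (g : C(C.Spec, ℝ)) :
    (h.linData hτ hτ1 hδ n f u hu hf hle).L j g = s.diagA τ j * g -
      (1000000 : ℝ) • (s.Rm τ j * C.symOp (f j) (u j) (s.Rm τ j * g)) := by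
  rw [← C.symOp_conj 1000000 (s.Rm τ j) (f j) (hu j) g]
  rfl

theorem Inv.linData_adj (h : s.Inv y0) (hτ : 0 < τ) (hτ1 : τ ≤ 1) {δ : ℝ} (hδ : 0 < δ)
    (n : Fin P.r → ℕ) (f : (j : Fin P.r) → Fin (n j) → C(C.Spec, ℝ))
    (u : (j : Fin P.r) → Fin (n j) → K →L[ℂ] K) (hu : ∀ j k, u j k ∈ C.GN)
    (hf : ∀ j k χ, 0 ≤ f j k χ)
    (hle : ∀ j g, (∀ χ, 0 ≤ g χ) → ∀ χ, C.symOp (f j) (u j) g χ ≤ h.load1 j g χ)
    (j : Fin P.r) :
    C.Adj ((h.linData hτ hτ1 hδ n f u hu hf hle).L j)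
      ((h.linData hτ hτ1 hδ n f u hu hf hle).L j) :=
  (C.adj_mulC _).sub
    (C.adj_symOp ((h.linData hτ hτ1 hδ n f u hu hf hle).f j)
      (u := (h.linData hτ hτ1 hδ n f u hu hf hle).u j)
      fun k => (h.linData hτ hτ1 hδ n f u hu hf hle).u_mem j k)

/-- The linearisation of the surplus along masked moves, with a bound `Kb` uniform in the state. -/
theorem exists_linear (C : Ctx K) (P : Par) (hg : 0 < gam) (hgz : gam ≤ P.z) :
    ∃ Kb : ℝ, 0 ≤ Kb ∧ ∀ (s : St C P) (y0 : K →L[ℂ] K) (τ δ ε : ℝ), s.Inv y0 →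
      (∀ i, ‖s.B i‖ ≤ P.z - gam) → (∀ χ, s.U χ = 1 → P.S + P.η ≤ s.F χ) →
      0 < τ → τ ≤ 1 → 0 < δ → 0 < ε →
      ∃ (D : LossData C P.r) (Δ : Fin P.r → Ctx.Form C),
        D.ζ = P.zeta ∧ D.R = s.Rm τ ∧ D.lam = s.lam + δ • (1 - s.U) ∧
        (∀ j, ‖D.L j‖ ≤ Kb) ∧ (∀ j, C.Adj (D.L j) (D.L j)) ∧
        (∀ j, (Δ j).Symm ∧ (Δ j).PSD ∧ (Δ j).pair 1 1 ≤ ε) ∧
        ∀ (d B : ℝ) (g : Fin P.r → C(C.Spec, ℝ)), 0 ≤ d →
          C.intA (s.U * s.finishable) ≤ d → (∀ i, s.grad i (s.R i * s.bad τ i) ≤ d) →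
          (∀ j χ, |g j χ| ≤ B) →
            s.sqTerm (fun j => s.Rm τ j * g j) ≤
              4 * C.intA (s.w * s.w * s.w * ((∑ j, D.L j (g j)) * (∑ j, D.L j (g j)))) +
                Kb * (∑ j, (Δ j).B (g j) (g j)) +
                Kb * B ^ 2 * (τ ^ 2 + (1 + 1 / τ) * d) := by
  have hη := P.hη
  have hr := P.r_pos
  have hz := P.z_pos
  have hKb : 2 + (P.z / gam + 1) * (P.r / 2) ≤ linConst C P gam :=
    le_add_of_nonneg_left (by positivity)
  have hKb0 : 0 ≤ linConst C P gam := le_trans (by positivity) hKb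
  refine ⟨linConst C P gam, hKb0, fun s y0 τ δ ε h hgap _ hτ hτ1 hδ hε => ?_⟩
  choose n f u hu hf hle hev using fun i => h.exists_loadFamily i hε
  have hD : ∀ j (g : C(C.Spec, ℝ)), (∀ χ, 0 ≤ g χ) → ∀ χ,
      0 ≤ (h.load1 j - (C.symOp (f j) (u j)).toLinearMap) g χ :=
    fun j g hg' χ => sub_nonneg.2 (hle j g hg' χ)
  have hsym := fun j => C.sqForm_symm _ (hD j)
  have hpsd := fun j => C.sqForm_psd _ (hD j)
  refine ⟨h.linData hτ hτ1 hδ n f u hu hf hle, fun j => (C.sqForm _ (hD j)).pullback (s.Rm τ j),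
    rfl, rfl, rfl, fun j => ?_, fun j => h.linData_adj hτ hτ1 hδ n f u hu hf hle j,
    fun j => h.pullback_props τ j (C.sqForm _ (hD j)) (hsym j) (hpsd j)
      (C.sqForm_pair_one_le _ (hD j) (hev j)), ?_⟩
  · refine ContinuousLinearMap.opNorm_le_bound _ hKb0 fun g => ?_
    rw [h.linData_L]
    exact (h.norm_linear_le hg (hgap j) hτ.le hτ1 _
      (fun q hq χ => C.symOp_nonneg (hu j) (hf j) hq χ) (hle j) g).trans
        (mul_le_mul_of_nonneg_right hKb (norm_nonneg g))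
  intro d B g hd hfin hbad hB
  simp only [h.linData_L]
  exact h.sq_linear_le hg hgap hτ hτ1 (fun j => C.symOp (f j) (u j)) hd hfin hbad hB

end St

end Vale.Agent.P078.Expected
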