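import Vale.Agent.P078.Expected.Iter.Quad
import Vale.Agent.P078.Expected.Norm.Forms

/-!
The summed forms of the second variation of one colour and the limit of their diagonal sums.
-/

noncomputable section

open scoped InnerProductSpace
open Filter Topology

namespace Vale.Agent.P078.Expected

open Vale.Agent.P078.Finite (real_smul_mem)

universe u

variable {K : Type u} [NormedAddCommGroup K] [InnerProductSpace ℂ K] [CompleteSpace K]

/-- Pointwise absolute value. -/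
def absC {X : Type*} [TopologicalSpace X] (f : C(X, ℝ)) : C(X, ℝ) :=
  ⟨fun x => |f x|, f.continuous.abs⟩

theorem absC_apply {X : Type*} [TopologicalSpace X] (f : C(X, ℝ)) (x : X) : absC f x = |f x| :=
  rfl

namespace Ctx

variable (C : Ctx K)

/-- The form `Re tr (a g X h b)`. -/
def vecForm (a b : K →L[ℂ] K) {X : K →L[ℂ] K} (hX : X ∈ C.M) : Form C :=
  Form.pinch (star a C.Ω) (b C.Ω) hX

theorem inner_star_apply (a T b : K →L[ℂ] K) :
    ⟪star a C.Ω, T (b C.Ω)⟫_ℂ = C.tr (a * T * b) := by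
  rw [ContinuousLinearMap.star_eq_adjoint, ContinuousLinearMap.adjoint_inner_left]
  rfl

theorem vecForm_B (a b : K →L[ℂ] K) {X : K →L[ℂ] K} (hX : X ∈ C.M) (g h : C(C.Spec, ℝ)) :
    (C.vecForm a b hX).B g h = (C.tr (a * C.op g * X * C.op h * b)).re := by
  rw [vecForm, Form.pinch_B, C.inner_star_apply]
  simp only [mul_assoc]

theorem pair_vecForm (a b : K →L[ℂ] K) {X : K →L[ℂ] K} (hX : X ∈ C.M) (f : C(C.Spec, ℝ)) :
    (C.vecForm a b hX).pair (C.mulC f) (C.mulC f) =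
      (C.tr (a * C.op f * C.E X * C.op f * b)).re := by
  rw [vecForm, Form.pair_pinch_one, C.inner_star_apply]
  simp only [mul_assoc]

/-- The value at the identity of a pulled back symmetric part. -/
theorem pair_pullback_symz (F : Form C) (f : C(C.Spec, ℝ)) :
    (F.symz.pullback f).pair 1 1 = F.pair (C.mulC f) (C.mulC f) := by
  rw [Form.pair_pullback, mul_one, Form.pair_symz _ (C.mulC_mem f) (C.mulC_mem f)]
  ring

theorem intA_sub (f g : C(C.Spec, ℝ)) : C.intA (f - g) = C.intA f - C.intA g := by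
  rw [eq_sub_iff_add_eq, ← C.intA_add, sub_add_cancel]

end Ctx

namespace St

variable {C : Ctx K} {P : Par} {s : St C P} {y0 : K →L[ℂ] K} {τ : ℝ}
  {ω : Fin P.r → C(C.Spec, ℝ)}

/-- One sign of the form of the second variation. -/
def Inv.signQ (h : s.Inv y0) (σ : ℝ) (i : Fin P.r) : Ctx.Form C :=
  (C.vecForm (C.op (s.u i) * s.Z σ i) (s.Z σ i) (h.Z_mem σ i)).add
    (C.vecForm (C.op s.Lam) (s.Z σ i) (h.Z_mem σ i))

/-- The form of the second variation of one colour. -/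
def Inv.rawQ (h : s.Inv y0) (i : Fin P.r) : Ctx.Form C :=
  ((h.signQ 1 i).add (h.signQ (-1) i)).add
    ((Ctx.Form.smul (P.z ^ 2)⁻¹ (C.vecForm (C.op s.Lam) (s.y i) (h.y_mem i))).add
      (Ctx.Form.smul (-(1 / 4)) (C.vecForm 1 (C.op s.lam) (one_mem C.M))))

/-- The form added to the second variation. -/
def Inv.rawB (h : s.Inv y0) (i : Fin P.r) : Ctx.Form C :=
  Ctx.Form.smul (1 / (4 * P.z ^ 2))
    ((C.vecForm (C.op (s.u i) * s.y i) (s.y i) (h.W_mem 1 i)).add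
      (C.vecForm (C.op (s.u i) * s.y i) (s.y i) (h.W_mem (-1) i)))

/-- The second variation along the moves `d g`. -/
def Inv.formQ (h : s.Inv y0) (τ : ℝ)
    (ω : Fin P.r → C(C.Spec, ℝ)) (i : Fin P.r) : Ctx.Form C :=
  (h.rawQ i).symz.pullback (s.d τ ω i)

/-- The added form along the moves `d g`. -/
def Inv.formB (h : s.Inv y0) (τ : ℝ)
    (ω : Fin P.r → C(C.Spec, ℝ)) (i : Fin P.r) : Ctx.Form C :=
  (h.rawB i).symz.pullback (s.d τ ω i)

/-- The weight of the penalty of one colour. -/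
def penalty (s : St C P) (τ : ℝ)
    (ω : Fin P.r → C(C.Spec, ℝ)) (i : Fin P.r) : C(C.Spec, ℝ) :=
  s.lam * (s.Rm τ i * (s.m ω i * s.m ω i))

/-- The penalty of one colour as a form. -/
def formM (s : St C P) (τ : ℝ)
    (ω : Fin P.r → C(C.Spec, ℝ)) (i : Fin P.r) : Ctx.Form C :=
  (C.vecForm 1 (C.op (s.penalty τ ω i)) (one_mem C.M)).symz

/-- The nonnegative form dominating the second variation of one colour. -/
def Inv.formS (h : s.Inv y0) (τ : ℝ)
    (ω : Fin P.r → C(C.Spec, ℝ)) (i : Fin P.r) : Ctx.Form C :=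
  ((h.formQ τ ω i).add (h.formB τ ω i)).add (Ctx.Form.smul 4 (s.formM τ ω i))

theorem Inv.rawQ_B (h : s.Inv y0) (i : Fin P.r) (X : C(C.Spec, ℝ)) :
    (h.rawQ i).B X X = s.Q i X := by
  have e : (C.vecForm 1 (C.op s.lam) (one_mem C.M)).B X X = C.intA (s.lam * (X * X)) := by
    rw [C.vecForm_B, one_mul, mul_one, ← map_mul, ← map_mul, mul_comm, Ctx.intA]
  simp only [rawQ, signQ, Ctx.Form.add_B, Ctx.Form.smul_B, e, C.vecForm_B, Q, quadForm]
  ring

theorem Inv.formQ_B_self (h : s.Inv y0) (τ : ℝ)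
    (ω : Fin P.r → C(C.Spec, ℝ)) (i : Fin P.r) (g : C(C.Spec, ℝ)) :
    (h.formQ τ ω i).B g g = s.Q i (s.d τ ω i * g) := by
  rw [formQ, Ctx.Form.pullback_B, Ctx.Form.symz_B, h.rawQ_B]
  ring

theorem Inv.formB_B_self (h : s.Inv y0) (τ : ℝ)
    (ω : Fin P.r → C(C.Spec, ℝ)) (i : Fin P.r) (g : C(C.Spec, ℝ)) :
    (h.formB τ ω i).B g g = s.bForm i (s.d τ ω i * g) := by
  rw [formB, Ctx.Form.pullback_B, Ctx.Form.symz_B]
  simp only [rawB, Ctx.Form.add_B, Ctx.Form.smul_B, C.vecForm_B, bForm]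
  ring

theorem formM_B (s : St C P) (τ : ℝ)
    (ω : Fin P.r → C(C.Spec, ℝ)) (i : Fin P.r) (g k : C(C.Spec, ℝ)) :
    (s.formM τ ω i).B g k = C.intA (s.lam * (s.Rm τ i * (s.m ω i * s.m ω i)) * (g * k)) := by
  have e : ∀ a b : C(C.Spec, ℝ), (C.vecForm 1 (C.op (s.penalty τ ω i)) (one_mem C.M)).B a b =
      C.intA (s.lam * (s.Rm τ i * (s.m ω i * s.m ω i)) * (a * b)) := fun a b => by
    rw [C.vecForm_B, one_mul, mul_one, ← map_mul, ← map_mul, mul_comm, Ctx.intA, penalty]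
  rw [formM, Ctx.Form.symz_B, e, e, mul_comm k g]
  ring

theorem Inv.formQ_symm (h : s.Inv y0) (τ : ℝ)
    (ω : Fin P.r → C(C.Spec, ℝ)) (i : Fin P.r) : (h.formQ τ ω i).Symm :=
  Ctx.Form.pullback_symm (Ctx.Form.symz_symm _) _

theorem Inv.formB_symm (h : s.Inv y0) (τ : ℝ)
    (ω : Fin P.r → C(C.Spec, ℝ)) (i : Fin P.r) : (h.formB τ ω i).Symm :=
  Ctx.Form.pullback_symm (Ctx.Form.symz_symm _) _

theorem formM_symm (s : St C P) (τ : ℝ)
    (ω : Fin P.r → C(C.Spec, ℝ)) (i : Fin P.r) : (s.formM τ ω i).Symm :=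
  Ctx.Form.symz_symm _

theorem Inv.formS_symm (h : s.Inv y0) (τ : ℝ)
    (ω : Fin P.r → C(C.Spec, ℝ)) (i : Fin P.r) : (h.formS τ ω i).Symm :=
  Ctx.Form.add_symm (Ctx.Form.add_symm (h.formQ_symm τ ω i) (h.formB_symm τ ω i))
    (Ctx.Form.smul_symm 4 (s.formM_symm τ ω i))

theorem Inv.formS_psd (h : s.Inv y0) (hτ : τ ≤ 1)
    (ω : Fin P.r → C(C.Spec, ℝ)) (i : Fin P.r) : (h.formS τ ω i).PSD :=
  fun g => by
    rw [formS, Ctx.Form.add_B, Ctx.Form.add_B, Ctx.Form.smul_B, h.formQ_B_self, h.formB_B_self,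
      formM_B]
    exact h.quad_nonneg hτ ω i g

theorem Inv.bForm_nonneg (h : s.Inv y0) (i : Fin P.r) (X : C(C.Spec, ℝ)) : 0 ≤ s.bForm i X := by
  have key : ∀ σ : ℝ, |σ| = 1 →
      0 ≤ (C.tr (C.op (s.u i) * s.y i * C.op X * s.W σ i * C.op X * s.y i)).re := by
    intro σ hσ
    set T := s.y i * (C.op X * s.W σ i * C.op X) * s.y i
    have hT : T ∈ C.M := mul_mem (mul_mem (h.y_mem i)
      (mul_mem (mul_mem (C.op_mem_M X) (h.W_mem σ i)) (C.op_mem_M X))) (h.y_mem i)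
    have h0 : 0 ≤ T := by
      have hW : 0 ≤ s.W σ i := (h.gap0 i).Zo_nonneg hσ
      have h1 : 0 ≤ C.op X * s.W σ i * C.op X := by
        simpa [(C.op_sa X).star_eq] using star_left_conjugate_nonneg hW (C.op X)
      simpa [T, (h.y_sa i).star_eq] using star_left_conjugate_nonneg h1 (s.y i)
    rw [show C.op (s.u i) * s.y i * C.op X * s.W σ i * C.op X * s.y i = C.op (s.u i) * T by
      simp only [T, mul_assoc], C.re_tr_op_mul hT (IsSelfAdjoint.of_nonneg h0)]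
    exact C.intA_nonneg fun χ => mul_nonneg (h.u_nonneg i χ) (C.Er_nonneg hT h0 χ)
  exact mul_nonneg (by positivity [P.z_pos]) (add_nonneg (key 1 abs_one) (key (-1) (by norm_num)))

theorem Inv.formB_psd (h : s.Inv y0) (τ : ℝ)
    (ω : Fin P.r → C(C.Spec, ℝ)) (i : Fin P.r) : (h.formB τ ω i).PSD := fun g => by
  rw [h.formB_B_self]
  exact h.bForm_nonneg i _

theorem mu_eq_vecL (s : St C P) (σ : ℝ) (i : Fin P.r) (f : C(C.Spec, ℝ)) :
    s.mu σ i f = C.vecL (star (C.op (s.u i) * s.Z σ i) C.Ω) (s.Z σ i C.Ω) f := by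
  rw [vecL_star_apply, mu]

theorem muy_eq_vecL (s : St C P) (i : Fin P.r) (f : C(C.Spec, ℝ)) :
    s.muy i f =
      (P.z ^ 2)⁻¹ * C.vecL (star (C.op (s.u i) * s.y i) C.Ω) (s.y i C.Ω) f := by
  rw [vecL_star_apply, muy]

theorem muy_add (s : St C P) (i : Fin P.r) (f g : C(C.Spec, ℝ)) :
    s.muy i (f + g) = s.muy i f + s.muy i g := by
  rw [muy_eq_vecL, muy_eq_vecL, muy_eq_vecL, map_add, mul_add]

theorem Inv.mu_mono (h : s.Inv y0) (σ : ℝ) (i : Fin P.r) {f g : C(C.Spec, ℝ)}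
    (hfg : ∀ χ, f χ ≤ g χ) : s.mu σ i f ≤ s.mu σ i g := by
  have h0 := h.mu_nonneg σ i (f := g - f) fun χ => sub_nonneg.2 (hfg χ)
  rw [mu_eq_vecL, map_sub, ← mu_eq_vecL, ← mu_eq_vecL] at h0
  linarith

theorem mu_add (s : St C P) (σ : ℝ) (i : Fin P.r) (f g : C(C.Spec, ℝ)) :
    s.mu σ i (f + g) = s.mu σ i f + s.mu σ i g := by
  rw [mu_eq_vecL, mu_eq_vecL, mu_eq_vecL, map_add]

/-- The limit of the diagonal sums of the second variation and its added form. -/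
theorem Inv.pair_one_QB (h : s.Inv y0) (τ : ℝ)
    (ω : Fin P.r → C(C.Spec, ℝ)) (i : Fin P.r) :
    (h.formQ τ ω i).pair 1 1 + (h.formB τ ω i).pair 1 1 =
      s.mu 1 i (s.d τ ω i * s.d τ ω i * C.Er (s.Z 1 i)) +
        s.mu (-1) i (s.d τ ω i * s.d τ ω i * C.Er (s.Z (-1) i)) +
        C.intA (s.Lam * (s.d τ ω i * s.d τ ω i) * (C.Er (s.Z 1 i) * C.Er (s.Z 1 i) +
          C.Er (s.Z (-1) i) * C.Er (s.Z (-1) i) +
            (P.z ^ 2)⁻¹ • (C.Er (s.y i) * C.Er (s.y i)))) -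
        1 / 4 * C.intA (s.lam * (s.d τ ω i * s.d τ ω i)) +
        1 / 4 * s.muy i (s.d τ ω i * s.d τ ω i * s.e i) := by
  set d := s.d τ ω i
  have hd : C.mulC d ∈ C.Ops := C.mulC_mem d
  have eZ : ∀ σ : ℝ, C.op d * C.E (s.Z σ i) * C.op d = C.op (d * d * C.Er (s.Z σ i)) := fun σ => by
    rw [← C.op_Er (h.Z_mem σ i) (h.Z_sa σ i), ← map_mul, ← map_mul, mul_right_comm]
  have eW : ∀ σ : ℝ, C.op d * C.E (s.W σ i) * C.op d = C.op (d * d * C.Er (s.W σ i)) := fun σ => by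
    rw [← C.op_Er (h.W_mem σ i) (h.W_sa σ i), ← map_mul, ← map_mul, mul_right_comm]
  have eL : ∀ {X : K →L[ℂ] K}, X ∈ C.M → IsSelfAdjoint X →
      (C.tr (C.op s.Lam * C.op d * C.E X * C.op d * X)).re =
        C.intA (s.Lam * (d * d) * (C.Er X * C.Er X)) := fun {X} hX hXs => by
    rw [← C.op_Er hX hXs, ← map_mul, ← map_mul, ← map_mul, C.re_tr_op_mul hX hXs]
    refine congrArg C.intA ?_
    ring
  have t1 : ∀ σ : ℝ, (C.vecForm (C.op (s.u i) * s.Z σ i) (s.Z σ i) (h.Z_mem σ i)).pair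
      (C.mulC d) (C.mulC d) = s.mu σ i (d * d * C.Er (s.Z σ i)) := fun σ => by
    rw [C.pair_vecForm, mu, ← eZ σ]
    simp only [mul_assoc]
  have t2 : (C.vecForm 1 (C.op s.lam) (one_mem C.M)).pair (C.mulC d) (C.mulC d) =
      C.intA (s.lam * (d * d)) := by
    rw [C.pair_vecForm, C.E_of_mem (one_mem C.A), one_mul, mul_one, ← map_mul, ← map_mul,
      mul_comm, Ctx.intA]
  have t3 : ∀ σ : ℝ, (C.vecForm (C.op (s.u i) * s.y i) (s.y i) (h.W_mem σ i)).pair
      (C.mulC d) (C.mulC d) = P.z ^ 2 * s.muy i (d * d * C.Er (s.W σ i)) := fun σ => by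
    rw [C.pair_vecForm, muy, mul_inv_cancel_left₀ (pow_ne_zero 2 P.z_pos.ne'), ← eW σ]
    simp only [mul_assoc]
  rw [formQ, formB, C.pair_pullback_symz, C.pair_pullback_symz, show s.d τ ω i = d from rfl]
  simp only [rawQ, signQ, rawB, Ctx.Form.pair_add_form _ _ hd hd,
    Ctx.Form.pair_smul_form _ _ hd hd, t1, t2, t3]
  rw [C.pair_vecForm, C.pair_vecForm, C.pair_vecForm, eL (h.Z_mem 1 i) (h.Z_sa 1 i),
    eL (h.Z_mem (-1) i) (h.Z_sa (-1) i), eL (h.y_mem i) (h.y_sa i), e]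
  simp only [mul_add, muy_add, mul_smul_comm, C.intA_add, C.intA_smul]
  have := P.z_pos.ne'
  field_simp
  ring

theorem Inv.mul_abs_Er_y_le (h : s.Inv y0) (i : Fin P.r) (χ : C.Spec) :
    s.R i χ * |C.Er (s.y i) χ| ≤ P.z := by
  have hb := h.B_sa i
  have hm : s.B i ∈ C.M := mul_mem (mul_mem (rt_mem i) (h.y_mem i)) (rt_mem i)
  have h1 : |C.Er (s.B i) χ| ≤ ‖s.B i‖ := by
    refine ((C.Er (s.B i)).norm_coe_le_norm χ).trans ?_
    rw [← C.norm_op, C.op_Er hm hb]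
    exact C.norm_E_le hm
  have e : C.Er (s.B i) χ = s.R i χ * C.Er (s.y i) χ := by
    rw [B, rt, C.Er_mul_op _ (mul_mem (C.op_mem_M _) (h.y_mem i)), C.Er_op_mul _ (h.y_mem i),
      mul_right_comm, h.sq_R, ContinuousMap.mul_apply]
  rw [e, abs_mul, abs_of_nonneg (h.R_nonneg i χ)] at h1
  exact h1.trans (h.gap i).le

theorem Inv.abs_Er_y_le_corr (h : s.Inv y0) (hy0 : y0 ∈ C.M) (hE : C.E y0 = 0) (i : Fin P.r)
    (χ : C.Spec) : |C.Er (s.y i) χ| ≤ C.Er (s.corr i) χ := by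
  have h0 : C.Er y0 χ = 0 := by
    rw [Ctx.Er, hE, ← map_zero C.op, C.re_op]
    rfl
  have h1 := C.Er_mono (sub_mem hy0 (h.y_mem i)) (h.corr_mem i) (h.diff_le i).1 χ
  have h2 := C.Er_mono (sub_mem (h.y_mem i) hy0) (h.corr_mem i) (h.diff_le i).2 χ
  rw [C.Er_sub hy0 (h.y_mem i), ContinuousMap.sub_apply, h0] at h1
  rw [C.Er_sub (h.y_mem i) hy0, ContinuousMap.sub_apply, h0] at h2
  exact abs_le.2 ⟨by linarith, by linarith⟩

/-- The constant in front of the correction in the trace bound. -/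
def traceConst (P : Par) : ℝ := (2 / P.η) ^ 2 * (2 + 5 * 1000001) / P.z

theorem traceConst_nonneg (P : Par) : 0 ≤ traceConst P := by
  have := P.z_pos
  have := P.hη
  unfold traceConst
  positivity

/-- The limit of the diagonal sums of the second variation is strictly negative, up to the
correction. -/
theorem Inv.pair_one_le (h : s.Inv y0) (hτ : τ ≤ 1) (hy0 : y0 ∈ C.M) (hE : C.E y0 = 0)
    {i : Fin P.r} (hω : ∀ χ, s.Rm τ i χ + P.zeta ≤ ω i χ) :
    (h.formQ τ ω i).pair 1 1 + (h.formB τ ω i).pair 1 1 ≤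
      -(1 / 5) * C.intA (s.lam * (s.d τ ω i * s.d τ ω i)) + traceConst P * (C.tr (s.corr i)).re := by
  rw [h.pair_one_QB]
  set d := s.d τ ω i
  set D : C(C.Spec, ℝ) := d * d with hD
  set a : C(C.Spec, ℝ) := C.Er (s.y i)
  set x : C(C.Spec, ℝ) := P.z⁻¹ • absC a with hx
  set ep := C.Er (s.W 1 i)
  set em := C.Er (s.W (-1) i)
  have hz := P.z_pos
  have hD0 : ∀ χ, 0 ≤ D χ := fun χ => mul_self_nonneg (d χ)
  have hDs : D * s.mask τ i = D := by rw [hD, mul_assoc, h.d_mul_mask]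
  have hep : ∀ χ, 0 ≤ ep χ := h.Er_W_nonneg abs_one i
  have hem : ∀ χ, 0 ≤ em χ := h.Er_W_nonneg (by norm_num) i
  have hx0 : ∀ χ, 0 ≤ x χ := fun χ => mul_nonneg (inv_nonneg.2 hz.le) (abs_nonneg _)
  have hx2 : ∀ χ, x χ * x χ = (P.z ^ 2)⁻¹ * (a χ * a χ) := fun χ => by
    rw [hx, ContinuousMap.smul_apply, absC_apply, smul_eq_mul, mul_mul_mul_comm, abs_mul_abs_self,
      sq, mul_inv]
  have hEr : ∀ σ, C.Er (s.Z σ i) = (σ / P.z) • a + C.Er (s.W σ i) := fun σ => by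
    rw [← C.Er_smul _ (h.y_mem i)]
    exact C.Er_add (real_smul_mem (h.y_mem i) _) (h.W_mem σ i)
  have hZle : ∀ σ : ℝ, |σ| = 1 → ∀ χ, C.Er (s.Z σ i) χ ≤ (x + C.Er (s.W σ i)) χ := fun σ hσ χ => by
    rw [hEr, ContinuousMap.add_apply, ContinuousMap.add_apply, ContinuousMap.smul_apply, hx,
      ContinuousMap.smul_apply, absC_apply, smul_eq_mul, smul_eq_mul]
    refine add_le_add ?_ le_rfl
    refine (le_abs_self _).trans_eq ?_
    rw [abs_mul, abs_div, hσ, abs_of_pos hz, one_div]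
  -- the transformed weights
  have m1 : s.mu 1 i (D * C.Er (s.Z 1 i)) ≤ s.mu 1 i (D * s.e i) + s.mu 1 i (D * x) := by
    rw [← mu_add]
    refine h.mu_mono 1 i fun χ => ?_
    rw [← mul_add]
    refine mul_le_mul_of_nonneg_left ((hZle 1 abs_one χ).trans ?_) (hD0 χ)
    simp only [e, ContinuousMap.add_apply]
    linarith [hem χ]
  have m2 : s.mu (-1) i (D * C.Er (s.Z (-1) i)) ≤
      s.mu (-1) i (D * s.e i) + s.mu (-1) i (D * x) := by
    rw [← mu_add]
    refine h.mu_mono (-1) i fun χ => ?_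
    rw [← mul_add]
    refine mul_le_mul_of_nonneg_left ((hZle (-1) (by norm_num) χ).trans ?_) (hD0 χ)
    simp only [e, ContinuousMap.add_apply]
    linarith [hep χ]
  -- the squares
  have m3 : C.intA (s.Lam * D * (C.Er (s.Z 1 i) * C.Er (s.Z 1 i) +
      C.Er (s.Z (-1) i) * C.Er (s.Z (-1) i) + (P.z ^ 2)⁻¹ • (a * a))) ≤
      2 * C.intA (D * s.e i * (s.Lam * (s.e i + s.l i))) +
        5 * C.intA (s.Lam * (D * (x * x))) := by
    rw [← C.intA_smul, ← C.intA_smul, ← C.intA_add]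
    refine C.intA_mono fun χ => ?_
    simp only [hEr, e, ContinuousMap.add_apply, ContinuousMap.mul_apply, ContinuousMap.smul_apply,
      smul_eq_mul, hx2]
    have hl := h.l_nonneg i χ
    have hL := mul_nonneg (h.Lam_nonneg χ) (hD0 χ)
    have key : (1 / P.z * a χ + ep χ) * (1 / P.z * a χ + ep χ) +
        (-1 / P.z * a χ + em χ) * (-1 / P.z * a χ + em χ) + (P.z ^ 2)⁻¹ * (a χ * a χ) ≤
        2 * ((ep χ + em χ) * (ep χ + em χ + s.l i χ)) + 5 * ((P.z ^ 2)⁻¹ * (a χ * a χ)) := by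
      have e2 : (P.z ^ 2)⁻¹ * (a χ * a χ) = (1 / P.z * a χ) * (1 / P.z * a χ) := by ring
      rw [e2, neg_div, neg_mul]
      nlinarith [sq_nonneg (1 / P.z * a χ - ep χ), sq_nonneg (1 / P.z * a χ + em χ),
        mul_nonneg (hep χ) (hem χ), mul_nonneg (add_nonneg (hep χ) (hem χ)) hl]
    have := mul_le_mul_of_nonneg_left key hL
    linarith
  -- the load functional at three symbols
  have hs1 : ∀ f : C(C.Spec, ℝ), D * f * s.mask τ i = D * f := fun f => by
    rw [mul_right_comm, hDs]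
  have hfe : ∀ χ, 0 ≤ (D * s.e i) χ := fun χ => mul_nonneg (hD0 χ) (h.e_nonneg i χ)
  have hfx : ∀ χ, 0 ≤ (D * x) χ := fun χ => mul_nonneg (hD0 χ) (hx0 χ)
  have L1 := h.load_fun_le hτ i hfe (hs1 _)
  have L2 := h.load_fun_le hτ i hfx (hs1 _)
  have L3 := h.load_fun_le hτ i hD0 hDs
  have nel : ∀ f : C(C.Spec, ℝ), (∀ χ, 0 ≤ f χ) →
      0 ≤ C.intA (f * (s.Lam * (s.e i + s.l i))) := fun f hf => C.intA_nonneg fun χ =>
    mul_nonneg (hf χ) (mul_nonneg (h.Lam_nonneg χ) (h.el_nonneg i χ))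
  have L4 : 1000000 * C.intA (D * s.e i * s.lam) ≤ C.intA (D * (s.Lam * (s.e i + s.l i))) := by
    rw [← C.intA_smul]
    refine C.intA_mono fun χ => ?_
    simp only [ContinuousMap.mul_apply, ContinuousMap.smul_apply, ContinuousMap.add_apply,
      smul_eq_mul, Lam_apply]
    have a1 := mul_nonneg (mul_nonneg (hD0 χ) P.eps0_pos.le) (h.el_nonneg i χ)
    have a2 := mul_nonneg (mul_nonneg (hD0 χ) (h.lam_nonneg χ)) (h.l_nonneg i χ)
    nlinarith
  have n1 := h.mu_nonneg 1 i hfe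
  have n2 := h.mu_nonneg (-1) i hfe
  have n3 := h.muy_nonneg i hfe
  have n4 := h.muy_nonneg i hfx
  have n5 := nel _ hfx
  have n6 := h.mu_nonneg 1 i hD0
  have n7 := h.mu_nonneg (-1) i hD0
  have n8 := h.muy_nonneg i hD0
  -- the correction
  have L5 : 2 * C.intA (D * x * s.lam) + 5 * C.intA (s.Lam * (D * (x * x))) ≤
      traceConst P * (C.tr (s.corr i)).re := by
    rw [← C.intA_Er (h.corr_mem i) (IsSelfAdjoint.of_nonneg (h.corr_nonneg i)), ← C.intA_smul,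
      ← C.intA_smul, ← C.intA_smul, ← C.intA_add]
    refine C.intA_mono fun χ => ?_
    simp only [ContinuousMap.add_apply, ContinuousMap.mul_apply, ContinuousMap.smul_apply,
      smul_eq_mul]
    have hc := h.abs_Er_y_le_corr hy0 hE i χ
    have hxc : x χ ≤ C.Er (s.corr i) χ / P.z := by
      rw [hx, ContinuousMap.smul_apply, absC_apply, smul_eq_mul, inv_mul_eq_div]
      exact div_le_div_of_nonneg_right hc hz.le
    rcases h.mask_values τ i χ with hm | hm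
    · have : D χ = 0 := by
        have e := congrArg (fun F : C(C.Spec, ℝ) => F χ) hDs
        simp only [ContinuousMap.mul_apply, hm, mul_zero] at e
        exact e.symm
      rw [this]
      simp only [zero_mul, mul_zero, add_zero]
      exact mul_nonneg (traceConst_nonneg P) ((abs_nonneg _).trans hc)
    obtain ⟨hU, -, -⟩ := h.of_mask_eq_one hm
    have hlam0 := h.lam_nonneg χ
    have hL : s.Lam χ ≤ 1000001 * s.lam χ := by
      rw [Lam_apply]
      linarith [h.le_lam hU]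
    have hlb : s.lam χ ≤ (2 / P.η) ^ 2 := by
      rw [lam_apply, sq]
      exact mul_self_le_mul_self (h.w_nonneg χ) (h.w_le χ)
    have hDR : D χ ≤ s.R i χ := (h.d_sq_le hω χ).trans (h.Rm_le_R τ i χ)
    have hD1 : D χ ≤ 1 := hDR.trans ((h.R_le i χ).trans (by norm_num))
    have hDx : D χ * x χ ≤ 1 := by
      refine (mul_le_mul_of_nonneg_right hDR (hx0 χ)).trans ?_
      rw [hx, ContinuousMap.smul_apply, absC_apply, smul_eq_mul, mul_left_comm,
        inv_mul_le_iff₀ hz, mul_one]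
      exact h.mul_abs_Er_y_le i χ
    have b1 : D χ * x χ * s.lam χ ≤ (2 / P.η) ^ 2 * x χ := by
      calc D χ * x χ * s.lam χ ≤ 1 * x χ * (2 / P.η) ^ 2 :=
            mul_le_mul (mul_le_mul_of_nonneg_right hD1 (hx0 χ)) hlb hlam0
              (mul_nonneg zero_le_one (hx0 χ))
        _ = _ := by ring
    have b2 : s.Lam χ * (D χ * (x χ * x χ)) ≤ 1000001 * ((2 / P.η) ^ 2 * x χ) := by
      calc s.Lam χ * (D χ * (x χ * x χ)) ≤ 1000001 * s.lam χ * (D χ * (x χ * x χ)) :=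
            mul_le_mul_of_nonneg_right hL (mul_nonneg (hD0 χ) (mul_self_nonneg _))
        _ = 1000001 * (s.lam χ * (D χ * x χ * x χ)) := by ring
        _ ≤ 1000001 * ((2 / P.η) ^ 2 * (1 * x χ)) :=
            mul_le_mul_of_nonneg_left (mul_le_mul hlb (mul_le_mul_of_nonneg_right hDx (hx0 χ))
              (mul_nonneg (mul_nonneg (hD0 χ) (hx0 χ)) (hx0 χ)) (sq_nonneg _)) (by norm_num)
        _ = _ := by rw [one_mul]
    have b3 : (2 / P.η) ^ 2 * (2 + 5 * 1000001) * x χ ≤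
        traceConst P * C.Er (s.corr i) χ := by
      rw [traceConst, div_mul_eq_mul_div, mul_div_assoc]
      exact mul_le_mul_of_nonneg_left hxc (by positivity)
    linarith
  rw [show C.intA (s.lam * D) = C.intA (D * s.lam) by rw [mul_comm]]
  have nlam : 0 ≤ C.intA (D * s.lam) :=
    C.intA_nonneg fun χ => mul_nonneg (hD0 χ) (h.lam_nonneg χ)
  linarith

end St

end Vale.Agent.P078.Expected
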