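import Vale.Agent.P078.Expected.Iter.Linear
import Vale.Agent.P078.Expected.Iter.TraceBound
import Vale.Agent.P078.Expected.Norm.LossDefs

/-!
A bounded move along which the second variation of the potential is negative.
-/

noncomputable section

namespace Vale.Agent.P078.Expected

universe u

variable {K : Type u} [NormedAddCommGroup K] [InnerProductSpace ℂ K] [CompleteSpace K]

namespace Ctx

variable (C : Ctx K)

/-- The form `∫ f g h`. -/
def mulForm (f : C(C.Spec, ℝ)) : Form C := (C.vecForm 1 (C.op f) (one_mem C.M)).symz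

theorem mulForm_B (f g h : C(C.Spec, ℝ)) : (C.mulForm f).B g h = C.intA (f * (g * h)) := by
  have e : ∀ a b : C(C.Spec, ℝ),
      (C.vecForm 1 (C.op f) (one_mem C.M)).B a b = C.intA (f * (a * b)) := fun a b => by
    rw [C.vecForm_B, one_mul, mul_one, ← map_mul, ← map_mul, mul_comm, Ctx.intA]
  rw [mulForm, Form.symz_B, e, e, mul_comm h g]
  ring

theorem mulForm_symm (f : C(C.Spec, ℝ)) : (C.mulForm f).Symm := Form.symz_symm _

theorem mulForm_psd {f : C(C.Spec, ℝ)} (hf : ∀ χ, 0 ≤ f χ) : (C.mulForm f).PSD := fun g => by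
  rw [mulForm_B]
  exact C.intA_nonneg fun χ => mul_nonneg (hf χ) (mul_self_nonneg (g χ))

theorem pair_mulForm (f : C(C.Spec, ℝ)) : (C.mulForm f).pair 1 1 = C.intA f := by
  rw [Form.pair_one_of_mul (C.mulForm f)
    { toFun := fun g => C.intA (f * g)
      map_add' := fun g k => by rw [mul_add, C.intA_add]
      map_smul' := fun t g => by rw [mul_smul_comm, C.intA_smul]; rfl }
    (fun g k => C.mulForm_B f g k)]
  exact congrArg C.intA (mul_one f)

/-- Pulling back changes the value at the identity by at most the square of the size. -/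
theorem pair_pullback_le {F : Form C} (hS : F.Symm) (hP : F.PSD) (f : C(C.Spec, ℝ)) :
    (F.pullback f).pair 1 1 ≤ ‖f‖ ^ 2 * F.pair 1 1 := by
  rw [Form.pair_pullback, mul_one]
  refine (Form.pair_self_le hS hP (C.adj_mulC f)).trans ?_
  rw [sq]
  have h := C.norm_mulC_le f
  exact mul_le_mul_of_nonneg_right
    (mul_le_mul h h (ContinuousLinearMap.opNorm_nonneg _) (norm_nonneg _)) (F.pair_nonneg hP C.one_mem_Ops)

theorem norm_symbol_le {f : C(C.Spec, ℝ)} {a : ℝ} (ha : 0 ≤ a) (h : ∀ χ, |f χ| ≤ a) : ‖f‖ ≤ a :=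
  (ContinuousMap.norm_le _ ha).2 h

end Ctx

namespace St

variable {C : Ctx K} {P : Par} {s : St C P} {y0 : K →L[ℂ] K} {gam τ d : ℝ}

theorem Inv.mask_one_sub_U (h : s.Inv y0) (τ : ℝ) (i : Fin P.r) :
    s.Rm τ i * (1 - s.U) = 0 := by
  ext χ
  rcases h.mask_values τ i χ with hm | hm
  · simp [Rm, hm]
  · simp [Rm, hm, (h.of_mask_eq_one hm).1]

/-- The masked weights carry the surplus, up to what can be finished or lowered. -/
theorem Inv.masked_weight_ge (h : s.Inv y0) (hτ : 0 < τ) (hd : 0 ≤ d)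
    (hfin : C.intA (s.U * s.finishable) ≤ d) (hbad : ∀ i, s.grad i (s.R i * s.bad τ i) ≤ d) :
    P.S * C.intA s.lam - (P.S * (2 / P.η) ^ 2 + P.r / τ) * d ≤
      C.intA (s.lam * ∑ i, s.Rm τ i) := by
  have hS := P.hS
  have hη := P.hη
  have hb : ∀ i, C.intA (s.lam * (s.R i * s.bad τ i)) ≤ d / τ := fun i => by
    rw [le_div_iff₀ hτ, mul_comm]
    have := (h.le_grad_bad τ i (h.R_nonneg i)).trans
      ((le_of_eq (by rw [mul_comm])).trans (hbad i))
    rwa [mul_comm (s.bad τ i) (s.R i), mul_comm (s.R i * s.bad τ i)] at this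
  have key : C.intA (P.S • s.lam) ≤ C.intA (s.lam * ∑ i, s.Rm τ i +
      (P.S * (2 / P.η) ^ 2) • (s.U * s.finishable) + ∑ i, s.lam * (s.R i * s.bad τ i)) := by
    refine C.intA_mono fun χ => ?_
    simp only [ContinuousMap.add_apply, ContinuousMap.mul_apply, ContinuousMap.smul_apply,
      ContinuousMap.sum_apply, smul_eq_mul]
    have hl0 := h.lam_nonneg χ
    have hRm : 0 ≤ s.lam χ * ∑ i, s.Rm τ i χ :=
      mul_nonneg hl0 (Finset.sum_nonneg fun i _ => h.Rm_nonneg τ i χ)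
    have hRb : 0 ≤ ∑ i, s.lam χ * (s.R i χ * s.bad τ i χ) :=
      Finset.sum_nonneg fun i _ =>
        mul_nonneg hl0 (mul_nonneg (h.R_nonneg i χ) (h.bad_le τ i χ).1)
    rcases h.U_values χ with hU | hU
    · have : s.lam χ = 0 := by rw [lam_apply, w_apply, hU, zero_mul, zero_mul]
      simp [this, hU]
    have hlb : s.lam χ ≤ (2 / P.η) ^ 2 := by
      rw [lam_apply, sq]
      exact mul_self_le_mul_self (h.w_nonneg χ) (h.w_le χ)
    rcases s.finishable_values χ with hf | hf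
    · rw [hU, hf, mul_zero, mul_zero, add_zero, ← Finset.mul_sum, ← mul_add, mul_comm P.S,
        ← Finset.sum_add_distrib]
      refine mul_le_mul_of_nonneg_left ?_ hl0
      have hF := (le_add_of_nonneg_right (half_pos hη).le).trans (h.floor χ hU)
      have hload := h.load_le χ
      have he : 0 ≤ ∑ i, s.R i χ * (s.e i χ + s.l i χ) :=
        Finset.sum_nonneg fun i _ => mul_nonneg (h.R_nonneg i χ) (h.el_nonneg i χ)
      have e : ∑ i, (s.Rm τ i χ + s.R i χ * s.bad τ i χ) = ∑ i, s.R i χ := by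
        refine Finset.sum_congr rfl fun i _ => ?_
        simp only [Rm, mask, ContinuousMap.mul_apply, ContinuousMap.sub_apply,
          ContinuousMap.one_apply, hU, hf]
        ring
      rw [e]
      linarith
    · rw [hU, hf, one_mul, mul_one]
      have := mul_le_mul_of_nonneg_left hlb hS.le
      linarith
  rw [C.intA_smul, C.intA_add, C.intA_add, C.intA_smul, C.intA_sum] at key
  have h1 := mul_le_mul_of_nonneg_left hfin
    (by positivity : (0 : ℝ) ≤ P.S * (2 / P.η) ^ 2)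
  have h2 : ∑ i, C.intA (s.lam * (s.R i * s.bad τ i)) ≤ P.r * (d / τ) :=
    (Finset.sum_le_sum fun i _ => hb i).trans_eq (by simp)
  have e : (P.r : ℝ) * (d / τ) = P.r / τ * d := by ring
  linarith

/-- The gain of a move in terms of the masked weights and the excess of `ω`. -/
theorem Inv.gain_ge (h : s.Inv y0) {ω : Fin P.r → C(C.Spec, ℝ)}
    (hw : ∀ i χ, s.Rm τ i χ + P.zeta ≤ ω i χ) :
    C.intA (s.lam * ∑ i, s.Rm τ i) - ∑ i, C.intA (s.lam * (ω i - s.Rm τ i - P.zeta • 1)) -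
        P.r * P.zeta * C.intA s.lam ≤
      ∑ i, C.intA (s.lam * (s.d τ ω i * s.d τ ω i)) := by
  have hi : ∀ i, C.intA (s.lam * s.Rm τ i) ≤ C.intA (s.lam * (s.d τ ω i * s.d τ ω i) +
      s.lam * (ω i - s.Rm τ i - P.zeta • 1) + P.zeta • s.lam) := fun i => by
    refine C.intA_mono fun χ => ?_
    simp only [ContinuousMap.add_apply, ContinuousMap.mul_apply, ContinuousMap.sub_apply,
      ContinuousMap.smul_apply, ContinuousMap.one_apply, smul_eq_mul, mul_one]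
    have hR := h.Rm_nonneg τ i χ
    have hpos : 0 < ω i χ := lt_of_lt_of_le (add_pos_of_nonneg_of_pos hR P.zeta_pos) (hw i χ)
    have e : s.d τ ω i χ * s.d τ ω i χ = s.Rm τ i χ * s.Rm τ i χ / ω i χ := by
      rw [h.d_sq_eq (hw i), sq]
    have key : 2 * s.Rm τ i χ - ω i χ ≤ s.Rm τ i χ * s.Rm τ i χ / ω i χ := by
      rw [le_div_iff₀ hpos]
      nlinarith [sq_nonneg (s.Rm τ i χ - ω i χ)]
    rw [← e] at key
    have := mul_le_mul_of_nonneg_left key (h.lam_nonneg χ)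
    linarith
  have hs := Finset.sum_le_sum fun i (_ : i ∈ Finset.univ) => hi i
  simp only [C.intA_add, C.intA_smul, Finset.sum_add_distrib] at hs
  rw [Finset.sum_const, Finset.card_univ, Fintype.card_fin, nsmul_eq_mul, ← mul_assoc,
    ← C.intA_sum, ← Finset.mul_sum] at hs
  linarith

/-- The bookkeeping of the move. -/
theorem move_arith {sQ sb sD W4 W bl pu T sqv KB F11 F4 lev X A0 A1 dd exc exc' tr lost eps3
    tail : ℝ} (hT : 0 ≤ T) (hsb : 0 ≤ sb) (hdir : sQ + sb + sD + W4 ≤ bl + pu + T)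
    (hsq : sqv ≤ W + sD + KB) (hW : W = W4) (hpu : pu ≤ T) (hKB : KB ≤ 2 * T)
    (hbl : bl ≤ F11 + F4 + eps3) (heps : eps3 ≤ T) (hF4 : F4 = 4 * lev)
    (hF : F11 ≤ -(1 / 5) * dd + tr) (htr : tr ≤ T)
    (hdd : X - exc - 125000000 * A0 ≤ dd) (hexc : exc ≤ exc') (hexc0 : 0 ≤ exc)
    (hloss : lev + exc' ≤ 16 * A1 + tail) (htail : tail ≤ 72 / 11000 * (X + 125000000 * A1))
    (hA1 : A1 ≤ A0 + T) (hA0 : T ≤ A0) (hX : 1000000000 * A0 - lost ≤ X) (hlost : lost ≤ T) :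
    sQ + sqv ≤ -(2 * T) := by
  linarith

/-- When little can be finished or lowered, some bounded move bends the potential down. -/
theorem exists_move (hL : LossBound C) (hg : 0 < gam) (hgz : gam ≤ P.z) {δ : ℝ} (hδ : 0 < δ) :
    ∃ τ d b : ℝ, 0 < τ ∧ τ ≤ 1 ∧ 0 < d ∧ ∀ (s : St C P) (y0 : K →L[ℂ] K), s.Inv y0 →
      y0 ∈ C.M → C.E y0 = 0 →
      (∀ i, ‖s.B i‖ ≤ P.z - gam) → (∀ χ, s.U χ = 1 → P.S + P.η ≤ s.F χ) →
      δ < C.intA s.U → traceConst P * ∑ i, (C.tr (s.corr i)).re ≤ P.eps0 * δ →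
      C.intA (s.U * s.finishable) ≤ d → (∀ i, s.grad i (s.R i * s.bad τ i) ≤ d) →
      ∃ x : Fin P.r → C(C.Spec, ℝ), (∀ i χ, |x i χ| ≤ b) ∧ (∀ i, s.U * x i = x i) ∧
        (∀ i χ, x i χ ≠ 0 → s.R i χ ≤ 1 / 4) ∧
        ∑ i, s.Q i (s.R i * x i) + s.sqTerm (fun i => s.R i * x i) ≤ -(2 * (P.eps0 * δ)) := by
  obtain ⟨Kb, hKb, hlin⟩ := exists_linear C P hg hgz
  have hr := P.r_pos
  have hz := P.zeta_pos
  have hη := P.hη
  have hS := P.hS
  obtain ⟨T, hT⟩ : ∃ T, T = P.eps0 * δ := ⟨_, rfl⟩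
  have hT0 : 0 < T := hT ▸ mul_pos P.eps0_pos hδ
  obtain ⟨N, hN⟩ : ∃ N, N = C.intA 1 := ⟨_, rfl⟩
  have hN0 : 0 ≤ N := hN ▸ C.intA_nonneg fun _ => zero_le_one
  obtain ⟨Lb, hLb⟩ : ∃ L, L = Kb / √P.zeta := ⟨_, rfl⟩
  have hLb0 : 0 ≤ Lb := hLb ▸ div_nonneg hKb (Real.sqrt_nonneg _)
  obtain ⟨c, hc⟩ : ∃ c, c = max (16 * P.r / P.zeta) (P.r * Lb ^ 2) + 1 := ⟨_, rfl⟩
  have hc0 : 0 < c := by
    have : 0 ≤ (P.r : ℝ) * Lb ^ 2 := by positivity
    rw [hc]
    linarith [le_max_right (16 * P.r / P.zeta) (P.r * Lb ^ 2)]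
  obtain ⟨M0, hM0⟩ : ∃ M, M = (2 / P.η) ^ 3 * N := ⟨_, rfl⟩
  obtain ⟨n, hn⟩ := exists_nat_ge (4 * c * M0 / T)
  have hn' : 4 * (c * M0 / (2 * n + 1)) ≤ T := by
    rw [div_le_iff₀ hT0] at hn
    rw [← mul_div_assoc, div_le_iff₀ (by positivity)]
    linarith [mul_nonneg (Nat.cast_nonneg (α := ℝ) n) hT0.le]
  obtain ⟨Qb, hQb⟩ : ∃ Q, Q = 1 + Lb * Lb * (c⁻¹ * n * 2 ^ n) := ⟨_, rfl⟩
  have hQb0 : 0 ≤ Qb := by rw [hQb]; positivity
  obtain ⟨B, hB⟩ : ∃ B, B = (√P.zeta)⁻¹ * (P.r * Qb) := ⟨_, rfl⟩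
  obtain ⟨KB, hKB⟩ : ∃ k, k = Kb * B ^ 2 := ⟨_, rfl⟩
  have hKB0 : 0 ≤ KB := hKB ▸ mul_nonneg hKb (sq_nonneg _)
  obtain ⟨τ, hτ⟩ : ∃ τ, τ = min 1 (T / (KB + 1)) := ⟨_, rfl⟩
  have hτ0 : 0 < τ := hτ ▸ lt_min one_pos (by positivity)
  have hτ1 : τ ≤ 1 := hτ ▸ min_le_left _ _
  have hτT : KB * τ ^ 2 ≤ T := by
    have h1 : τ * (KB + 1) ≤ T := by
      rw [← le_div_iff₀ (by positivity), hτ]
      exact min_le_right _ _
    have h2 : τ ^ 2 ≤ τ := by
      rw [sq]
      exact mul_le_of_le_one_left hτ0.le hτ1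
    linarith [mul_le_mul_of_nonneg_left h2 hKB0]
  obtain ⟨k1, hk1⟩ : ∃ k, k = KB * (1 + 1 / τ) + P.S * (2 / P.η) ^ 2 + P.r / τ + 1 := ⟨_, rfl⟩
  have hk10 : 0 < k1 := by rw [hk1]; positivity
  obtain ⟨d, hd⟩ : ∃ d, d = T / k1 := ⟨_, rfl⟩
  have hd0 : 0 < d := hd ▸ div_pos hT0 hk10
  have hdk : k1 * d = T := by rw [hd, mul_div_cancel₀ _ hk10.ne']
  refine ⟨τ, d, B, hτ0, hτ1, hd0, fun s y0 h hy0 hE hgap hfloor hU hcorr hfin hbad => ?_⟩
  -- the linearisation and the weight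
  obtain ⟨δ', hδ'⟩ : ∃ x, x = T / (N + 1) := ⟨_, rfl⟩
  have hδ'0 : 0 < δ' := hδ' ▸ div_pos hT0 (by linarith)
  obtain ⟨ε, hε⟩ : ∃ x, x = T / (Kb * P.r * P.r * Qb ^ 2 / P.zeta + 1) := ⟨_, rfl⟩
  have hε0 : 0 < ε := hε ▸ div_pos hT0 (by positivity)
  obtain ⟨D, Δ, hDζ, hDR, hDlam, hDL, hDA, hΔ, hsq⟩ :=
    hlin s y0 τ δ' ε h hgap hfloor hτ0 hτ1 hδ'0 hε0
  have hrz : (P.r : ℝ) * D.ζ = P.S / 8 := by rw [hDζ, P.r_mul_zeta]
  obtain ⟨ω, hω, hloss⟩ := hL D (by rw [hrz, P.S_eq]; norm_num)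
  rw [hDζ, hDR] at hω
  have hw : ∀ i χ, s.Rm τ i χ + P.zeta ≤ ω i χ := fun i χ => (hω i χ).1
  have hmeq : ∀ i, D.m ω i = s.m ω i := fun i => ContinuousMap.ext fun χ => by
    change (√(max (ω i χ) D.ζ))⁻¹ = (√(max (ω i χ) P.zeta))⁻¹
    rw [hDζ]
  have hm : ∀ i, ‖s.m ω i‖ ≤ (√P.zeta)⁻¹ := fun i =>
    C.norm_symbol_le (inv_nonneg.2 (Real.sqrt_nonneg _)) fun χ => by
      change |(√(max (ω i χ) P.zeta))⁻¹| ≤ _
      rw [abs_of_nonneg (inv_nonneg.2 (Real.sqrt_nonneg _))]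
      exact inv_anti₀ (Real.sqrt_pos.2 hz) (Real.sqrt_le_sqrt (le_max_right _ _))
  have hA : ∀ j, C.Adj (D.Lo ω j) (D.Lt ω j) := fun j => (hDA j).mul (C.adj_mulC _)
  have hmL : ∀ j, ‖C.mulC (D.m ω j)‖ ≤ (√P.zeta)⁻¹ := fun j =>
    (C.norm_mulC_le _).trans ((hmeq j).symm ▸ hm j)
  have hLo : ∀ j, ‖D.Lo ω j‖ ≤ Lb := fun j => by
    rw [hLb, div_eq_mul_inv]
    exact (C.norm_mul_Op_le _ _).trans
      (mul_le_mul (hDL j) (hmL j) (ContinuousLinearMap.opNorm_nonneg _) hKb)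
  have hLt : ∀ j, ‖D.Lt ω j‖ ≤ Lb := fun j => by
    rw [hLb, div_eq_mul_inv, mul_comm Kb]
    exact (C.norm_mul_Op_le _ _).trans
      (mul_le_mul (hmL j) (hDL j) (ContinuousLinearMap.opNorm_nonneg _) (inv_nonneg.2 (Real.sqrt_nonneg _)))
  have hG : ‖∑ k, D.Lo ω k * D.Lt ω k‖ ≤ c := by
    refine (norm_sum_le (E := C.Op) _ _).trans ((Finset.sum_le_sum fun k _ =>
      (C.norm_mul_Op_le _ _).trans (mul_le_mul (hLo k) (hLt k) (ContinuousLinearMap.opNorm_nonneg _) hLb0)).trans ?_)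
    rw [Finset.sum_const, Finset.card_univ, Fintype.card_fin, nsmul_eq_mul, ← sq, hc]
    linarith [le_max_right (16 * P.r / P.zeta) (P.r * Lb ^ 2)]
  have hc16 : 16 * P.r / D.ζ ≤ c := by
    rw [hDζ, hc]
    linarith [le_max_left (16 * P.r / P.zeta) (P.r * Lb ^ 2)]
  let kb : Fin P.r → Fin P.r → C.Op := C.kerBlock (D.Lo ω) (D.Lt ω) c n
  have hkmem : ∀ j i, kb j i ∈ C.Ops := C.kerBlock_mem hA c n
  have hkb : ∀ j i, ‖kb j i‖ ≤ Qb := fun j i => by
    refine (C.norm_kerBlock_le hc0 hG n j i).trans ?_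
    rw [hQb]
    exact add_le_add le_rfl (mul_le_mul_of_nonneg_right
      (mul_le_mul (hLt j) (hLo i) (ContinuousLinearMap.opNorm_nonneg _) hLb0) (by positivity))
  -- the forms
  let W : C(C.Spec, ℝ) := (4 : ℝ) • (s.w * s.w * s.w)
  have hW0 : ∀ χ, 0 ≤ W χ := fun χ => by
    have := h.w_nonneg χ
    simp only [W, ContinuousMap.smul_apply, ContinuousMap.mul_apply, smul_eq_mul]
    positivity
  let Fc : Fin P.r → Ctx.Form C := fun j =>
    ((h.formQ τ ω j).add (h.formB τ ω j)).add (Ctx.Form.smul Kb ((Δ j).pullback (s.m ω j)))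
  let FF : Fin P.r ⊕ Unit → Ctx.Form C := Sum.elim Fc fun _ => C.mulForm W
  let TT : Fin P.r ⊕ Unit → Fin P.r → C.Op :=
    Sum.elim kb fun _ i => ∑ j, D.Lo ω j * kb j i
  have hTT : ∀ k i, TT k i ∈ C.Ops := by
    rintro (j | u) i
    · exact hkmem j i
    · exact sum_mem fun j _ => C.mul_mem_Ops (hA j).left_mem (hkmem j i)
  obtain ⟨σ, -, hσ, hdir⟩ := C.exists_direction FF hTT hT0
  simp only [FF, TT, Fintype.sum_sum_type, Sum.elim_inl, Sum.elim_inr, Finset.univ_unique,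
    Finset.sum_singleton] at hdir
  set v : Fin P.r → C(C.Spec, ℝ) := fun j => ∑ i, kb j i (σ i) with hv
  have hvn : ∀ j, ‖v j‖ ≤ P.r * Qb := fun j => by
    refine (norm_sum_le _ _).trans ((Finset.sum_le_sum fun i _ =>
      ((kb j i).le_opNorm _).trans (mul_le_of_le_one_right (norm_nonneg _) (hσ i) |>.trans
        (hkb j i))).trans_eq ?_)
    rw [Finset.sum_const, Finset.card_univ, Fintype.card_fin, nsmul_eq_mul]
  set g : Fin P.r → C(C.Spec, ℝ) := fun j => s.m ω j * v j with hgdef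
  have hgB : ∀ j χ, |g j χ| ≤ B := fun j χ => by
    refine ((g j).norm_coe_le_norm χ).trans ((norm_mul_le _ _).trans ?_)
    rw [hB]
    exact mul_le_mul (hm j) (hvn j) (norm_nonneg _) (inv_nonneg.2 (Real.sqrt_nonneg _))
  have hpush : ∑ i, (∑ j, D.Lo ω j * kb j i) (σ i) = ∑ j, D.L j (g j) := by
    simp only [_root_.sum_apply]
    rw [Finset.sum_comm]
    refine Finset.sum_congr rfl fun j _ => ?_
    have e : g j = C.mulC (D.m ω j) (v j) := by rw [C.mulC_apply, hmeq]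
    rw [e, hv]
    change _ = (D.L j * C.mulC (D.m ω j)) (∑ i, kb j i (σ i))
    rw [map_sum]
    rfl
  rw [hpush] at hdir
  -- the value of the move
  refine ⟨fun j => s.mask τ j * g j, fun j χ => ?_, fun j => ?_, fun j χ hne => ?_, ?_⟩
  · rw [ContinuousMap.mul_apply, abs_mul]
    refine le_trans ?_ (hgB j χ)
    refine mul_le_of_le_one_left (abs_nonneg _) ?_
    rcases h.mask_values τ j χ with e | e <;> simp [e]
  · simp only [St.mask, ← mul_assoc, h.U_idem]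
  · refine R_le_of_not_finishable (h.of_mask_eq_one ((h.mask_values τ j χ).resolve_left
      fun e => hne ?_)).2.1 j
    rw [ContinuousMap.mul_apply, e, zero_mul]
  have hX : (fun j => s.R j * (s.mask τ j * g j)) = fun j => s.Rm τ j * g j :=
    funext fun j => (mul_assoc _ _ _).symm
  have hX' : ∀ j, s.R j * (s.mask τ j * g j) = s.d τ ω j * v j := fun j => by
    simp only [hgdef, St.d, St.Rm]
    ring
  rw [hX, Finset.sum_congr rfl fun j _ => congrArg (s.Q j) (hX' j)]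
  have hsq' := hsq d B g hd0.le hfin hbad hgB
  have hFc : ∀ j, (Fc j).B (v j) (v j) =
      s.Q j (s.d τ ω j * v j) + s.bForm j (s.d τ ω j * v j) +
        Kb * (Δ j).B (g j) (g j) := fun j => by
    rw [Ctx.Form.add_B, Ctx.Form.add_B, Ctx.Form.smul_B, Ctx.Form.pullback_B, h.formQ_B_self,
      h.formB_B_self]
  have hWB : (C.mulForm W).B (∑ j, D.L j (g j)) (∑ j, D.L j (g j)) =
      4 * C.intA (s.w * s.w * s.w * ((∑ j, D.L j (g j)) * (∑ j, D.L j (g j)))) := by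
    rw [C.mulForm_B, show W * ((∑ j, D.L j (g j)) * (∑ j, D.L j (g j))) =
      (4 : ℝ) • (s.w * s.w * s.w * ((∑ j, D.L j (g j)) * (∑ j, D.L j (g j)))) from
        smul_mul_assoc _ _ _, C.intA_smul]
  rw [hWB, Finset.sum_congr rfl fun j _ => hFc j] at hdir
  simp only [Finset.sum_add_distrib, ← Finset.mul_sum] at hdir
  have hbF : 0 ≤ ∑ j, s.bForm j (s.d τ ω j * v j) :=
    Finset.sum_nonneg fun j _ => h.bForm_nonneg j _
  -- the pushed part
  have hpushed : ∑ i, (C.mulForm W).pair (∑ j, D.Lo ω j * kb j i) (∑ j, D.Lo ω j * kb j i) ≤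
      T := by
    refine (Ctx.Form.sum_pair_pushed_le (C.mulForm_symm W) (C.mulForm_psd hW0) hA hc0 hG n).trans ?_
    refine le_trans ?_ hn'
    rw [C.pair_mulForm, C.intA_smul, ← mul_div_assoc, mul_left_comm c]
    refine div_le_div_of_nonneg_right ?_ (by positivity)
    refine mul_le_mul_of_nonneg_left (mul_le_mul_of_nonneg_left ?_ hc0.le) (by norm_num)
    rw [hM0, hN, ← C.intA_smul]
    refine C.intA_mono fun χ => ?_
    simp only [ContinuousMap.mul_apply, ContinuousMap.smul_apply, ContinuousMap.one_apply,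
      smul_eq_mul, mul_one]
    rw [show (2 / P.η) ^ 3 = 2 / P.η * (2 / P.η) * (2 / P.η) by ring]
    have w0 := h.w_nonneg χ
    have w1 := h.w_le χ
    gcongr
  -- the blocks of one colour
  have hblock : ∀ j, ∑ i, (Fc j).pair (kb j i) (kb j i) ≤
      ((h.formQ τ ω j).pair 1 1 + (h.formB τ ω j).pair 1 1) +
        4 * (s.formM τ ω j).pair 1 (D.Lt ω j * C.neum (D.G ω) c (2 * n) * D.Lo ω j) +
        Kb * (P.r * (Qb ^ 2 * (ε / P.zeta))) := fun j => by
    obtain ⟨hΔs, hΔp, hΔε⟩ := hΔ j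
    set lev := D.Lt ω j * C.neum (D.G ω) c (2 * n) * D.Lo ω j
    have hlev : lev ∈ C.Ops := C.mul_mem_Ops (C.mul_mem_Ops (hA j).right_mem
      (C.neum_mem (C.adj_gram hA).left_mem _ _)) (hA j).left_mem
    have hnn : 0 ≤ (h.formS τ ω j).pair 1 lev := Ctx.Form.pair_leverage_nonneg
      (h.formS_symm τ ω j) (h.formS_psd hτ1 ω j) hA hc0 hG (2 * n) j
    simp only [Inv.formS] at hnn
    rw [Ctx.Form.pair_add_form _ _ C.one_mem_Ops hlev,
      Ctx.Form.pair_add_form _ _ C.one_mem_Ops hlev,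
      Ctx.Form.pair_smul_form _ _ C.one_mem_Ops hlev] at hnn
    have hsplit : ∀ i, (Fc j).pair (kb j i) (kb j i) =
        (h.formQ τ ω j).pair (kb j i) (kb j i) + (h.formB τ ω j).pair (kb j i) (kb j i) +
          Kb * ((Δ j).pullback (s.m ω j)).pair (kb j i) (kb j i) := fun i => by
      rw [Ctx.Form.pair_add_form _ _ (hkmem j i) (hkmem j i),
        Ctx.Form.pair_add_form _ _ (hkmem j i) (hkmem j i),
        Ctx.Form.pair_smul_form _ _ (hkmem j i) (hkmem j i)]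
    rw [Finset.sum_congr rfl fun i _ => hsplit i, Finset.sum_add_distrib, Finset.sum_add_distrib,
      Ctx.Form.sum_pair_kerBlock _ hA hc0.ne' n j, Ctx.Form.sum_pair_kerBlock _ hA hc0.ne' n j,
      ← Finset.mul_sum]
    have hps : ((Δ j).pullback (s.m ω j)).Symm := Ctx.Form.pullback_symm hΔs _
    have hpp : ((Δ j).pullback (s.m ω j)).PSD := fun a => by
      rw [Ctx.Form.pullback_B]
      exact hΔp _
    have h11 : ((Δ j).pullback (s.m ω j)).pair 1 1 ≤ ε / P.zeta := by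
      refine (C.pair_pullback_le hΔs hΔp _).trans ?_
      rw [div_eq_mul_inv, mul_comm ε]
      refine mul_le_mul ((pow_le_pow_left₀ (norm_nonneg _) (hm j) 2).trans_eq ?_) hΔε
        ((Δ j).pair_nonneg hΔp C.one_mem_Ops) (inv_nonneg.2 hz.le)
      rw [inv_pow, Real.sq_sqrt hz.le]
    have hres : ∑ i, ((Δ j).pullback (s.m ω j)).pair (kb j i) (kb j i) ≤
        P.r * (Qb ^ 2 * (ε / P.zeta)) := by
      refine (Finset.sum_le_sum fun i _ => ?_).trans_eq
        ((Finset.sum_const (Qb ^ 2 * (ε / P.zeta))).trans (by simp))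
      refine (Ctx.Form.pair_self_le hps hpp (C.adj_kerBlock hA c n j i)).trans ?_
      rw [sq]
      exact mul_le_mul (mul_le_mul (hkb i j) (hkb j i) (ContinuousLinearMap.opNorm_nonneg _) hQb0) h11
        (Ctx.Form.pair_nonneg _ hpp C.one_mem_Ops) (mul_nonneg hQb0 hQb0)
    have := mul_le_mul_of_nonneg_left hres hKb
    change _ + Kb * _ ≤ _
    simp only [lev, LossData.G] at hnn ⊢
    linarith
  have hlamR : ∀ j, D.lam * D.R j = s.lam * s.Rm τ j := fun j => by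
    rw [hDlam, hDR, add_mul, smul_mul_assoc, mul_comm (1 - s.U), h.mask_one_sub_U, smul_zero,
      add_zero]
  have hloss' := hloss (fun j => s.formM τ ω j) (fun j a b => by
    rw [formM_B, ← mul_assoc D.lam, hlamR, hmeq]
    simp only [mul_assoc]) c hc16 (2 * n)
  -- arithmetic
  have hlamA : C.intA D.lam ≤ C.intA s.lam + T := by
    rw [hDlam, C.intA_add, C.intA_smul]
    refine add_le_add le_rfl (le_trans (mul_le_mul_of_nonneg_left ?_ hδ'0.le) (b := δ' * N) ?_)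
    · rw [hN]
      exact C.intA_mono fun χ => by
        rcases h.U_values χ with e | e <;> simp [e]
    · rw [hδ', div_mul_eq_mul_div]
      exact div_le_of_le_mul₀ (by positivity) hT0.le
        (mul_le_mul_of_nonneg_left (le_add_of_nonneg_right zero_le_one) hT0.le)
  have hA0 : T ≤ C.intA s.lam := by
    have : P.eps0 * C.intA s.U ≤ C.intA s.lam := by
      rw [← C.intA_smul]
      refine C.intA_mono fun χ => ?_
      rw [ContinuousMap.smul_apply, smul_eq_mul]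
      rcases h.U_values χ with e | e <;> rw [e]
      · rw [mul_zero]; exact h.lam_nonneg χ
      · rw [mul_one]; exact h.le_lam e
    rw [hT]
    linarith [mul_le_mul_of_nonneg_left hU.le P.eps0_pos.le]
  have hexcess : ∀ j, 0 ≤ C.intA (s.lam * (ω j - s.Rm τ j - P.zeta • 1)) ∧
      C.intA (s.lam * (ω j - s.Rm τ j - P.zeta • 1)) ≤
        C.intA (D.lam * (ω j - D.R j - D.ζ • 1)) := fun j => by
    have h0 : ∀ χ, 0 ≤ (ω j - s.Rm τ j - P.zeta • 1) χ := fun χ => by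
      simp only [ContinuousMap.sub_apply, ContinuousMap.smul_apply, ContinuousMap.one_apply,
        smul_eq_mul, mul_one]
      linarith [hw j χ]
    refine ⟨C.intA_nonneg fun χ => mul_nonneg (h.lam_nonneg χ) (h0 χ), ?_⟩
    rw [hDR, hDζ]
    refine C.intA_mono fun χ => mul_le_mul_of_nonneg_right ?_ (h0 χ)
    rw [hDlam]
    simp only [ContinuousMap.add_apply, ContinuousMap.smul_apply, ContinuousMap.sub_apply,
      ContinuousMap.one_apply, smul_eq_mul]
    rcases h.U_values χ with e | e <;> rw [e] <;> linarith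
  have hXX : C.intA (D.lam * ∑ j, D.R j) = C.intA (s.lam * ∑ j, s.Rm τ j) := by
    simp only [Finset.mul_sum, hlamR]
  rw [hXX, hrz] at hloss'
  have hq : 72 / √(P.S / 8) ≤ 72 / 11000 := by
    refine div_le_div_of_nonneg_left (by norm_num) (by norm_num) ?_
    rw [P.S_eq, Real.le_sqrt (by norm_num) (by norm_num)]
    norm_num
  obtain ⟨X, hXdef⟩ : ∃ X, X = C.intA (s.lam * ∑ j, s.Rm τ j) := ⟨_, rfl⟩
  rw [← hXdef] at hloss'
  have hX0 : 0 ≤ X := hXdef ▸ C.intA_nonneg fun χ => mul_nonneg (h.lam_nonneg χ)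
    (by rw [ContinuousMap.sum_apply]; exact Finset.sum_nonneg fun i _ => h.Rm_nonneg τ i χ)
  have hlam' : 0 ≤ C.intA D.lam := C.intA_nonneg fun χ => (D.lam_pos χ).le
  have hqb := mul_le_mul_of_nonneg_right hq
    (add_nonneg hX0 (mul_nonneg (by linarith : (0 : ℝ) ≤ P.S / 8) hlam'))
  have hgain := h.gain_ge hw
  rw [P.r_mul_zeta, ← hXdef] at hgain
  have hXge := h.masked_weight_ge hτ0 hd0.le hfin hbad
  rw [← hXdef] at hXge
  have htr : ∑ j, ((h.formQ τ ω j).pair 1 1 + (h.formB τ ω j).pair 1 1) ≤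
      -(1 / 5) * ∑ j, C.intA (s.lam * (s.d τ ω j * s.d τ ω j)) +
        traceConst P * ∑ j, (C.tr (s.corr j)).re := by
    refine (Finset.sum_le_sum fun j _ => h.pair_one_le hτ1 hy0 hE (hw j)).trans_eq ?_
    rw [Finset.sum_add_distrib, Finset.mul_sum, Finset.mul_sum]
  have hexs := Finset.sum_nonneg fun j (_ : j ∈ Finset.univ) => (hexcess j).1
  have hexl := Finset.sum_le_sum fun j (_ : j ∈ Finset.univ) => (hexcess j).2
  have hb := Finset.sum_le_sum fun j (_ : j ∈ Finset.univ) => hblock j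
  simp only [Finset.sum_add_distrib, ← Finset.mul_sum, Finset.sum_const, Finset.card_univ,
    Fintype.card_fin, nsmul_eq_mul] at hb htr
  have hεT : Kb * (P.r * (P.r * (Qb ^ 2 * (ε / P.zeta)))) ≤ T := by
    have e : Kb * (P.r * (P.r * (Qb ^ 2 * (ε / P.zeta)))) =
        Kb * P.r * P.r * Qb ^ 2 / P.zeta * ε := by ring
    have h1 : (Kb * P.r * P.r * Qb ^ 2 / P.zeta + 1) * ε = T := by
      rw [hε, mul_div_cancel₀ _ (by positivity)]
    linarith
  rw [← hKB] at hsq'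
  rw [← hT] at hcorr ⊢
  have hk : 0 ≤ KB * (1 + 1 / τ) * d := by positivity
  have hl1 : 0 ≤ (P.S * (2 / P.η) ^ 2 + P.r / τ) * d := by positivity
  rw [hk1] at hdk
  rw [P.S_eq] at hgain hXge hqb hloss' hdk hl1
  have e8 : (1000000000 : ℝ) / 8 = 125000000 := by norm_num
  rw [e8] at hgain hqb hloss'
  refine move_arith hT0.le hbF hdir hsq' rfl hpushed ?_ hb (by linarith) rfl htr hcorr hgain hexl
    hexs hloss' hqb hlamA hA0 hXge ?_
  · linarith [mul_nonneg hl1 zero_le_one]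
  · linarith

end St

end Vale.Agent.P078.Expected
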