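import Vale.Agent.P078.Expected.Expect
import Vale.Agent.P078.Finite.Calculus

/-!
States of the paving iteration inside an inclusion with expectation: potential, first and second
variation.
-/

noncomputable section

namespace Vale.Agent.P078.Expected

open Vale.Agent.P078.Finite (Zo Zf real_smul_mem)

universe u

variable {X : Type*} [TopologicalSpace X]

/-- Pointwise square root. -/
def sqC (f : C(X, ℝ)) : C(X, ℝ) := ⟨fun x => √(f x), f.continuous.sqrt⟩

/-- Pointwise inverse above a positive floor. -/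
def invC {a : ℝ} (ha : 0 < a) (f : C(X, ℝ)) : C(X, ℝ) :=
  ⟨fun x => (max (f x) a)⁻¹, (f.continuous.max continuous_const).inv₀
    fun _ => (lt_max_of_lt_right ha).ne'⟩

theorem sqC_apply (f : C(X, ℝ)) (x : X) : sqC f x = √(f x) := rfl

theorem invC_apply {a : ℝ} (ha : 0 < a) (f : C(X, ℝ)) (x : X) : invC ha f x = (max (f x) a)⁻¹ :=
  rfl

/-- Number of colours and the margin of the potential. -/
structure Par where
  r : ℕ
  η : ℝ
  hr : 6000000000 ≤ r
  hη : 0 < η

namespace Par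

variable (P : Par)

/-- The floor of the surplus. -/
def S (_P : Par) : ℝ := 1000000000

theorem S_eq : P.S = 1000000000 := rfl

theorem hS : 0 < P.S := by rw [S_eq]; norm_num

theorem hSr : 6 * P.S ≤ P.r := by
  have : ((6000000000 : ℕ) : ℝ) ≤ P.r := Nat.cast_le.2 P.hr
  rw [S_eq]
  push_cast at this
  linarith

/-- The starting weight of each colour. -/
def rho : ℝ := 3 * P.S / P.r

/-- The level of the resolvents. -/
def z : ℝ := √(20000000 * P.rho)

/-- The weight of the linear part of the potential. -/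
def eps0 : ℝ := 1 / (P.r : ℝ) ^ 2

/-- Weights below this are ignored. -/
def zeta : ℝ := P.S / (8 * P.r)

theorem r_pos : (0 : ℝ) < P.r := by linarith [P.hSr, P.hS]

theorem S_large : (288000000 : ℝ) ≤ P.S := by rw [S_eq]; norm_num

theorem r_large : (1728000000 : ℝ) ≤ P.r := by linarith [P.hSr, P.S_large]

theorem rho_pos : 0 < P.rho := div_pos (by linarith [P.hS]) P.r_pos

theorem rho_le : P.rho ≤ 1 / 2 := by
  rw [rho, div_le_iff₀ P.r_pos]
  linarith [P.hSr]

theorem z_pos : 0 < P.z := Real.sqrt_pos.2 (mul_pos (by norm_num) P.rho_pos)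

theorem z_sq : P.z ^ 2 = 20000000 * P.rho :=
  Real.sq_sqrt (mul_nonneg (by norm_num) P.rho_pos.le)

theorem eps0_pos : 0 < P.eps0 := one_div_pos.2 (pow_pos P.r_pos 2)

theorem zeta_pos : 0 < P.zeta := div_pos P.hS (by linarith [P.r_pos])

theorem r_mul_zeta : (P.r : ℝ) * P.zeta = P.S / 8 := by
  rw [zeta]
  field_simp [P.r_pos.ne']

end Par

variable {K : Type u} [NormedAddCommGroup K] [InnerProductSpace ℂ K] [CompleteSpace K]

/-- A state of the iteration. -/
structure St (C : Ctx K) (P : Par) where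
  U : C(C.Spec, ℝ)
  R : Fin P.r → C(C.Spec, ℝ)
  fin : Fin P.r → C(C.Spec, ℝ)
  y : Fin P.r → K →L[ℂ] K
  corr : Fin P.r → K →L[ℂ] K

namespace St

variable {C : Ctx K} {P : Par} (s : St C P)

/-- The square root of a weight as an operator. -/
def rt (i : Fin P.r) : K →L[ℂ] K := C.op (sqC (s.R i))

/-- The sandwiched element. -/
def B (i : Fin P.r) : K →L[ℂ] K := s.rt i * s.y i * s.rt i

/-- The positive part of the resolvent expression. -/
def W (σ : ℝ) (i : Fin P.r) : K →L[ℂ] K := Zo P.z σ (s.rt i) (s.y i)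

/-- The resolvent expression. -/
def Z (σ : ℝ) (i : Fin P.r) : K →L[ℂ] K := Zf P.z σ (s.rt i) (s.y i)

/-- The resolvent load. -/
def e (i : Fin P.r) : C(C.Spec, ℝ) := C.Er (s.W 1 i) + C.Er (s.W (-1) i)

/-- The linear load. -/
def l (i : Fin P.r) : C(C.Spec, ℝ) := (P.z ^ 2)⁻¹ • C.Er (s.y i * C.op (s.R i) * s.y i)

/-- The surplus of one colour. -/
def psi (i : Fin P.r) : C(C.Spec, ℝ) :=
  s.R i * (1 - (1 / 4 : ℝ) • (1 - s.R i)) - (1000000 : ℝ) • (s.R i * (s.e i + s.l i))

/-- The surplus. -/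
def F : C(C.Spec, ℝ) := ∑ i, s.psi i

/-- The barrier weight. -/
def w : C(C.Spec, ℝ) := s.U * invC (half_pos P.hη) (s.F - P.S • 1)

/-- The potential. -/
def Phi : ℝ := P.eps0 * ∑ i, C.intA ((1 + s.R i) * (s.e i + s.l i)) + C.intA s.w

/-- The square of the barrier weight. -/
def lam : C(C.Spec, ℝ) := s.w * s.w

/-- The weight of the cross terms. -/
def Lam : C(C.Spec, ℝ) := P.eps0 • 1 + (1000000 : ℝ) • s.lam

/-- The weight in front of the derivative of the loads. -/
def u (i : Fin P.r) : C(C.Spec, ℝ) := P.eps0 • 1 + s.Lam * s.R i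

/-- The coefficient of the linear gain of one colour. -/
def gainCoef (i : Fin P.r) : C(C.Spec, ℝ) := 1 - (1 / 4 : ℝ) • (1 - (2 : ℝ) • s.R i)

/-- The transformed weight, as a functional of symbols. -/
def mu (σ : ℝ) (i : Fin P.r) (f : C(C.Spec, ℝ)) : ℝ :=
  (C.tr (C.op (s.u i) * s.Z σ i * C.op f * s.Z σ i)).re

/-- The transformed weight of the linear load, as a functional of symbols. -/
def muy (i : Fin P.r) (f : C(C.Spec, ℝ)) : ℝ :=
  (P.z ^ 2)⁻¹ * (C.tr (C.op (s.u i) * s.y i * C.op f * s.y i)).re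

/-- The gradient of the potential, as a functional of symbols. -/
def grad (i : Fin P.r) (f : C(C.Spec, ℝ)) : ℝ :=
  s.mu 1 i f + s.mu (-1) i f + s.muy i f +
    C.intA (f * (s.Lam * (s.e i + s.l i) - s.lam * s.gainCoef i))

/-- Where some weight has reached `1/4`. -/
def finishable : C(C.Spec, ℝ) := 1 - ∏ i, (1 - C.cutAt (s.R i) (1 / 4))

/-- Shift the weights multiplicatively. -/
def shift (t : ℝ) (x : Fin P.r → C(C.Spec, ℝ)) : St C P :=
  { s with R := fun i => s.R i * (1 + t • x i) }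

/-- First variation of the resolvent load. -/
def e1 (i : Fin P.r) (X : C(C.Spec, ℝ)) : C(C.Spec, ℝ) :=
  C.Er (s.Z 1 i * C.op X * s.Z 1 i) + C.Er (s.Z (-1) i * C.op X * s.Z (-1) i)

/-- First variation of the linear load. -/
def l1 (i : Fin P.r) (X : C(C.Spec, ℝ)) : C(C.Spec, ℝ) :=
  (P.z ^ 2)⁻¹ • C.Er (s.y i * C.op X * s.y i)

/-- First variation of the surplus of one colour. -/
def psi1 (i : Fin P.r) (X : C(C.Spec, ℝ)) : C(C.Spec, ℝ) :=
  X * s.gainCoef i -
    (1000000 : ℝ) • (X * (s.e i + s.l i) + s.R i * (s.e1 i X + s.l1 i X))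

/-- The cubic and quadratic form of one sign of the second variation. -/
def quadForm (i : Fin P.r) (f : C(C.Spec, ℝ)) (Z : K →L[ℂ] K) : ℝ :=
  (C.tr (C.op (s.u i) * Z * C.op f * Z * C.op f * Z)).re +
    (C.tr (C.op s.Lam * C.op f * Z * C.op f * Z)).re

/-- The indefinite form of the second variation for one colour. -/
def Q (i : Fin P.r) (X : C(C.Spec, ℝ)) : ℝ :=
  s.quadForm i X (s.Z 1 i) + s.quadForm i X (s.Z (-1) i) +
    (C.tr (C.op s.Lam * C.op X * s.y i * C.op X * s.y i)).re / P.z ^ 2 -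
    1 / 4 * C.intA (s.lam * (X * X))

/-- The positive term added to the second variation. -/
def bForm (i : Fin P.r) (X : C(C.Spec, ℝ)) : ℝ :=
  1 / (4 * P.z ^ 2) * ((C.tr (C.op (s.u i) * s.y i * C.op X * s.W 1 i * C.op X * s.y i)).re +
    (C.tr (C.op (s.u i) * s.y i * C.op X * s.W (-1) i * C.op X * s.y i)).re)

/-- The first variation along `X`. -/
def L1 (X : Fin P.r → C(C.Spec, ℝ)) : ℝ := ∑ i, s.grad i (X i)

/-- The square part of the second variation. -/
def sqTerm (X : Fin P.r → C(C.Spec, ℝ)) : ℝ :=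
  C.intA (s.w * s.w * s.w * ((∑ i, s.psi1 i (X i)) * (∑ i, s.psi1 i (X i))))

/-- The standing properties of a state, relative to the element `y0` being paved. -/
structure Inv (y0 : K →L[ℂ] K) : Prop where
  U_idem : s.U * s.U = s.U
  fin_idem : ∀ i, s.fin i * s.fin i = s.fin i
  fit : ∀ χ, s.U χ + ∑ i, s.fin i χ ≤ 1
  R_nonneg : ∀ i χ, 0 ≤ s.R i χ
  R_le : ∀ i χ, s.R i χ ≤ 1 / 2
  fin_R : ∀ i χ, s.fin i χ = 1 → 1 / 4 ≤ s.R i χ
  y_mem : ∀ i, s.y i ∈ C.M
  y_sa : ∀ i, IsSelfAdjoint (s.y i)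
  corr_mem : ∀ i, s.corr i ∈ C.M
  corr_nonneg : ∀ i, 0 ≤ s.corr i
  diff_le : ∀ i, y0 - s.y i ≤ s.corr i ∧ s.y i - y0 ≤ s.corr i
  gap : ∀ i, ‖s.B i‖ < P.z
  floor : ∀ χ, s.U χ = 1 → P.S + P.η / 2 ≤ s.F χ

/-- Removed mass. -/
def removed : C(C.Spec, ℝ) := 1 - s.U - ∑ i, s.fin i

/-- The losses so far are paid for by the decrease of the potential from `Φ0`. -/
structure Budget (gam Φ0 : ℝ) : Prop where
  corr_le : ∑ i, (C.tr (s.corr i)).re ≤ 2 * gam / P.eps0 * (Φ0 - s.Phi)
  removed_le : C.intA s.removed ≤ P.η * (Φ0 - s.Phi)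

end St

end Vale.Agent.P078.Expected
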