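import Vale.Agent.P078.Expected.Iter.Move
import Vale.Agent.P078.Expected.Iter.Moves
import Vale.Agent.P078.Expected.Iter.Taylor

/-!
One step of the iteration: the potential drops by a fixed amount.
-/

noncomputable section

namespace Vale.Agent.P078.Expected

universe u

variable {K : Type u} [NormedAddCommGroup K] [InnerProductSpace ℂ K] [CompleteSpace K]

namespace St

variable {C : Ctx K} {P : Par} {s : St C P} {y0 : K →L[ℂ] K} {gam : ℝ}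

/-- A bound on the quadratic coefficient along bounded moves. -/
theorem Inv.second_le (h : s.Inv y0) (hg : 0 < gam) (hgap : ∀ i, ‖s.B i‖ ≤ P.z - gam)
    {x : Fin P.r → C(C.Spec, ℝ)} (hx : ∀ i χ, |x i χ| ≤ 1) :
    ∑ i, s.Q i (s.R i * x i) + s.sqTerm (fun i => s.R i * x i) ≤
      ((P.z / gam + 1) + 2 * (P.z / gam) ^ 2) * s.Phi +
        ((2 / P.η) ^ 2 * (P.r * (1 + 1000000 * (((P.z / gam + 1) + 2 * (P.z / gam) ^ 2) * P.r))) +
          (2 / P.η) ^ 3 * (P.r * (1 + 1000000 * ((1 + (P.z / gam + 1)) * P.r))) ^ 2) *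
          ‖C.Ω‖ ^ 2 := by
  set X := fun i => s.R i * x i with hX
  obtain ⟨c, hc⟩ : ∃ c, c = (P.z / gam + 1) + 2 * (P.z / gam) ^ 2 := ⟨_, rfl⟩
  obtain ⟨p1, hp1⟩ : ∃ c, c = (P.r : ℝ) * (1 + 1000000 * ((1 + (P.z / gam + 1)) * P.r)) :=
    ⟨_, rfl⟩
  obtain ⟨p2, hp2⟩ : ∃ d, d = (P.r : ℝ) * (1 + 1000000 * (c * P.r)) := ⟨_, rfl⟩
  rw [← hc, ← hp1, ← hp2]
  set T2 := fun i => X i * (s.e1 i (X i) + s.l1 i (X i)) + (1 + s.R i) * s.e2 i (X i) with hT2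
  set Q1 := ∑ i, s.psi1 i (X i) with hQ1
  set Q2 := ∑ i, s.psi2 i (X i) with hQ2
  have hQ : P.eps0 * ∑ i, C.intA (T2 i) - C.intA (s.lam * Q2) = ∑ i, s.Q i (X i) := by
    rw [hQ2, Finset.mul_sum, Finset.mul_sum, C.intA_sum, ← Finset.sum_sub_distrib]
    exact Finset.sum_congr rfl fun i _ => h.intA_second i (X i)
  have ha : 0 ≤ P.z / gam := div_nonneg P.z_pos.le hg.le
  have hb : ∀ χ, s.U χ = 1 → |Q1 χ| ≤ p1 ∧ |Q2 χ| ≤ p2 := by
    intro χ hU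
    have hpe := fun i => ((h.point_expand hg hgap le_rfl hx (t := 0) (by norm_num) i χ).2 hU)
    choose δ _ _ h1 h2 using hpe
    rw [hQ1, hQ2, ContinuousMap.sum_apply, ContinuousMap.sum_apply]
    constructor
    · refine (Finset.abs_sum_le_sum_abs _ _).trans ((Finset.sum_le_sum fun i _ => h1 i).trans_eq ?_)
      rw [Finset.sum_const, Finset.card_univ, Fintype.card_fin, nsmul_eq_mul, hp1]
      ring
    · refine (Finset.abs_sum_le_sum_abs _ _).trans ((Finset.sum_le_sum fun i _ => h2 i).trans_eq ?_)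
      rw [Finset.sum_const, Finset.card_univ, Fintype.card_fin, nsmul_eq_mul, hp2, hc]
      ring
  have hη : 0 ≤ 2 / P.η := (div_pos two_pos P.hη).le
  have hp1' : 0 ≤ p1 := by rw [hp1]; positivity
  have hp2' : 0 ≤ p2 := by rw [hp2, hc]; positivity
  have hrest : C.intA (s.w * s.w * s.w * (Q1 * Q1) + (-1 : ℝ) • (s.lam * Q2)) ≤
      ((2 / P.η) ^ 2 * p2 + (2 / P.η) ^ 3 * p1 ^ 2) * ‖C.Ω‖ ^ 2 := by
    rw [← C.intA_const]
    refine C.intA_mono fun χ => ?_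
    simp only [lam, ContinuousMap.add_apply, ContinuousMap.mul_apply, ContinuousMap.smul_apply,
      smul_eq_mul, Algebra.algebraMap_eq_smul_one, ContinuousMap.one_apply, mul_one]
    rcases h.U_values χ with hU | hU
    · rw [show s.w χ = 0 by rw [w_apply, hU, zero_mul]]
      have : 0 ≤ (2 / P.η) ^ 2 * p2 + (2 / P.η) ^ 3 * p1 ^ 2 := by positivity
      linarith
    obtain ⟨b1, b2⟩ := hb χ hU
    have w0 := h.w_nonneg χ
    have w1 := h.w_le χ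
    have k1 : s.w χ * s.w χ * s.w χ * (Q1 χ * Q1 χ) ≤ (2 / P.η) ^ 3 * p1 ^ 2 := by
      rw [show s.w χ * s.w χ * s.w χ = s.w χ ^ 3 by ring, ← sq (Q1 χ), ← sq_abs (Q1 χ)]
      exact mul_le_mul (pow_le_pow_left₀ w0 w1 3) (pow_le_pow_left₀ (abs_nonneg _) b1 2)
        (sq_nonneg _) (pow_nonneg hη 3)
    have k2 : -1 * (s.w χ * s.w χ * Q2 χ) ≤ (2 / P.η) ^ 2 * p2 := by
      rw [show -1 * (s.w χ * s.w χ * Q2 χ) = s.w χ ^ 2 * (-Q2 χ) by ring]
      exact mul_le_mul_of_nonneg_left ((neg_le_abs _).trans b2) (sq_nonneg _) |>.trans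
        (mul_le_mul_of_nonneg_right (pow_le_pow_left₀ w0 w1 2) hp2')
    linarith
  rw [C.intA_add, C.intA_smul] at hrest
  have hfirst : ∀ i, C.intA (T2 i) ≤ c * C.intA ((1 + s.R i) * (s.e i + s.l i)) := fun i => by
    rw [← C.intA_smul]
    refine C.intA_mono fun χ => ?_
    obtain ⟨hD, hE⟩ := h.load_bounds hg (hgap i) zero_le_one (hx i) χ
    simp only [hT2, ContinuousMap.add_apply, ContinuousMap.mul_apply, ContinuousMap.smul_apply,
      ContinuousMap.one_apply, smul_eq_mul]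
    have hR := h.R_nonneg i χ
    have hel := h.el_nonneg i χ
    have hXa : |X i χ| ≤ s.R i χ := by
      rw [hX, ContinuousMap.mul_apply, abs_mul, abs_of_nonneg hR]
      exact mul_le_of_le_one_right hR (hx i χ)
    have k1 : X i χ * (s.e1 i (X i) χ + s.l1 i (X i) χ) ≤
        s.R i χ * (1 * (P.z / gam + 1) * (s.e i χ + s.l i χ)) := by
      refine (le_abs_self _).trans ?_
      rw [abs_mul]
      exact mul_le_mul hXa ((abs_add_le _ _).trans hD) (abs_nonneg _) hR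
    have k2 : (1 + s.R i χ) * s.e2 i (X i) χ ≤
        (1 + s.R i χ) * (2 * 1 ^ 2 * (P.z / gam) ^ 2 * (s.e i χ + s.l i χ)) :=
      mul_le_mul_of_nonneg_left ((le_abs_self _).trans hE) (by linarith)
    have k3 : 0 ≤ (P.z / gam + 1) * (s.e i χ + s.l i χ) := by positivity
    rw [hc]
    linarith
  have hPhi : P.eps0 * ∑ i, C.intA ((1 + s.R i) * (s.e i + s.l i)) ≤ s.Phi :=
    le_add_of_nonneg_right (C.intA_nonneg h.w_nonneg)
  have hc0 : 0 ≤ c := by rw [hc]; positivity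
  have hf := mul_le_mul_of_nonneg_left
    (Finset.sum_le_sum fun i (_ : i ∈ Finset.univ) => hfirst i) P.eps0_pos.le
  rw [← Finset.mul_sum] at hf
  have := mul_le_mul_of_nonneg_left hPhi hc0
  have hsq : s.sqTerm X = C.intA (s.w * s.w * s.w * (Q1 * Q1)) := rfl
  rw [← hQ, hsq]
  linarith

theorem Budget.shift {Φ0 : ℝ} (hb : s.Budget gam Φ0) (hgam : 0 ≤ gam) {t : ℝ}
    {x : Fin P.r → C(C.Spec, ℝ)} (hle : (s.shift t x).Phi ≤ s.Phi) :
    (s.shift t x).Budget gam Φ0 :=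
  ⟨hb.corr_le.trans (mul_le_mul_of_nonneg_left (by linarith)
      (div_nonneg (by linarith) P.eps0_pos.le)),
    le_trans hb.removed_le (mul_le_mul_of_nonneg_left (by linarith) P.hη.le)⟩

/-- The gradient as a linear functional. -/
theorem grad_neg (i : Fin P.r) (f : C(C.Spec, ℝ)) : s.grad i (-f) = -s.grad i f := by
  have e : ∀ g, s.grad i g = s.gradL 0 i g := fun g => by rw [gradL_apply]; simp
  rw [e, e, map_neg]

theorem grad_zero (i : Fin P.r) : s.grad i 0 = 0 := by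
  have e : s.grad i 0 = s.gradL 0 i 0 := by rw [gradL_apply]; simp
  rw [e, map_zero]

/-- Lowering a colour with a large gradient. -/
theorem Inv.exists_lower (h : s.Inv y0) {Φ0 d K1 A C1 τ σ : ℝ} (hbud : s.Budget gam Φ0)
    (hg : 0 < gam) {i : Fin P.r}
    (hi : d ≤ s.grad i (s.R i * s.bad σ i)) (hτ0 : 0 < τ) (hτ1 : τ ≤ 1)
    (hexp : ∀ x : Fin P.r → C(C.Spec, ℝ), (∀ j χ, |x j χ| ≤ 1) → (∀ j, s.U * x j = x j) →
      ((∀ j χ, (s.shift τ x).R j χ ≤ 1 / 2) → (s.shift τ x).Inv y0) ∧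
      (s.shift τ x).Phi ≤ s.Phi + τ * s.L1 (fun j => s.R j * x j) +
        τ ^ 2 * (∑ j, s.Q j (s.R j * x j) + s.sqTerm (fun j => s.R j * x j)) +
        C1 * |τ| ^ 3 * (s.Phi + ‖C.Ω‖ ^ 2 + 1))
    (hK : ∀ x : Fin P.r → C(C.Spec, ℝ), (∀ j χ, |x j χ| ≤ 1) →
      ∑ j, s.Q j (s.R j * x j) + s.sqTerm (fun j => s.R j * x j) ≤ K1)
    (hA : C1 * (s.Phi + ‖C.Ω‖ ^ 2 + 1) ≤ A) (hA0 : 0 ≤ A)
    (hτ : τ * (2 * (K1 + A)) ≤ d) (hd : 0 ≤ d) :
    ∃ t : St C P, t.Inv y0 ∧ t.Budget gam Φ0 ∧ t.Phi ≤ s.Phi - τ * d / 2 := by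
  classical
  set x : Fin P.r → C(C.Spec, ℝ) := fun j => if j = i then -s.bad σ i else 0 with hxdef
  have hxi : x i = -s.bad σ i := if_pos rfl
  have hxj : ∀ {j}, j ≠ i → x j = 0 := fun hj => if_neg hj
  have hbv : ∀ χ, 0 ≤ s.bad σ i χ ∧ s.bad σ i χ ≤ 1 := fun χ =>
    ⟨(h.bad_le σ i χ).1, by
      rcases idem_values (h.bad_idem σ i) χ with e | e <;> rw [e] <;> norm_num⟩
  have hx : ∀ j χ, -1 ≤ x j χ ∧ x j χ ≤ 0 := fun j χ => by
    by_cases hj : j = i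
    · subst hj
      rw [hxi, ContinuousMap.neg_apply]
      constructor <;> linarith [(hbv χ).1, (hbv χ).2]
    · rw [hxj hj, ContinuousMap.zero_apply]
      norm_num
  have hx' : ∀ j χ, |x j χ| ≤ 1 := fun j χ => abs_le.2 ⟨(hx j χ).1, by linarith [(hx j χ).2]⟩
  have hUx : ∀ j, s.U * x j = x j := fun j => by
    by_cases hj : j = i
    · subst hj
      rw [hxi, mul_neg, h.U_mul_bad]
    · rw [hxj hj, mul_zero]
  obtain ⟨hinv, hstep⟩ := hexp x hx' hUx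
  have hR : ∀ j χ, (s.shift τ x).R j χ ≤ 1 / 2 := fun j χ => by
    rw [shift_R]
    exact le_trans (add_le_of_nonpos_right (mul_nonpos_of_nonneg_of_nonpos hτ0.le
      (mul_nonpos_of_nonneg_of_nonpos (h.R_nonneg j χ) (hx j χ).2))) (h.R_le j χ)
  have hL : s.L1 (fun j => s.R j * x j) ≤ -d := by
    rw [L1, Finset.sum_eq_single i (fun j _ hj => by rw [hxj hj, mul_zero, grad_zero])
      (fun hh => absurd (Finset.mem_univ i) hh), hxi, mul_neg, grad_neg]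
    linarith
  have h1 := mul_le_mul_of_nonneg_left hL hτ0.le
  have h2 := mul_le_mul_of_nonneg_left (hK x hx') (sq_nonneg τ)
  have h3 : C1 * |τ| ^ 3 * (s.Phi + ‖C.Ω‖ ^ 2 + 1) ≤ τ ^ 2 * A := by
    rw [abs_of_pos hτ0, mul_comm C1, mul_assoc]
    exact (mul_le_mul_of_nonneg_left hA (pow_nonneg hτ0.le 3)).trans
      (mul_le_mul_of_nonneg_right (pow_le_pow_of_le_one hτ0.le hτ1 (by norm_num)) hA0)
  have h5 := mul_le_mul_of_nonneg_left hτ hτ0.le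
  have key : (s.shift τ x).Phi ≤ s.Phi - τ * d / 2 := by linarith
  have : 0 ≤ τ * d := mul_nonneg hτ0.le hd
  exact ⟨_, hinv hR, hbud.shift hg.le (by linarith), key⟩

/-- Moving along a direction of negative second variation. -/
theorem Inv.exists_bend (h : s.Inv y0) {Φ0 b q A C2 τ : ℝ} (hbud : s.Budget gam Φ0) (hg : 0 < gam)
    {x : Fin P.r → C(C.Spec, ℝ)} (hxb : ∀ i χ, |x i χ| ≤ b)
    (hxR : ∀ i χ, x i χ ≠ 0 → s.R i χ ≤ 1 / 4)
    (hQ : ∑ i, s.Q i (s.R i * x i) + s.sqTerm (fun i => s.R i * x i) ≤ -(2 * q))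
    (hexp : ∀ t : ℝ, |t| = τ →
      ((∀ i χ, (s.shift t x).R i χ ≤ 1 / 2) → (s.shift t x).Inv y0) ∧
      (s.shift t x).Phi ≤ s.Phi + t * s.L1 (fun i => s.R i * x i) +
        t ^ 2 * (∑ i, s.Q i (s.R i * x i) + s.sqTerm (fun i => s.R i * x i)) +
        C2 * |t| ^ 3 * (s.Phi + ‖C.Ω‖ ^ 2 + 1))
    (hA : C2 * (s.Phi + ‖C.Ω‖ ^ 2 + 1) ≤ A) (hq : 0 ≤ q) (hτ0 : 0 < τ) (hτb : τ * b ≤ 1)
    (hτ : τ * A ≤ q) :
    ∃ t : St C P, t.Inv y0 ∧ t.Budget gam Φ0 ∧ t.Phi ≤ s.Phi - q * τ ^ 2 := by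
  obtain ⟨σ, hσ, hσL⟩ : ∃ σ : ℝ, |σ| = τ ∧ σ * s.L1 (fun i => s.R i * x i) ≤ 0 := by
    rcases le_total (s.L1 fun i => s.R i * x i) 0 with hl | hl
    · exact ⟨τ, abs_of_pos hτ0, mul_nonpos_of_nonneg_of_nonpos hτ0.le hl⟩
    · exact ⟨-τ, by rw [abs_neg, abs_of_pos hτ0],
        mul_nonpos_of_nonpos_of_nonneg (by linarith) hl⟩
  obtain ⟨hinv, hstep⟩ := hexp σ hσ
  have hR : ∀ i χ, (s.shift σ x).R i χ ≤ 1 / 2 := fun i χ => by
    rw [shift_R]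
    by_cases h0 : x i χ = 0
    · rw [h0, mul_zero, mul_zero, add_zero]; exact h.R_le i χ
    have hR4 := hxR i χ h0
    have hσx : |σ * x i χ| ≤ 1 := by
      rw [abs_mul, hσ]
      exact (mul_le_mul_of_nonneg_left (hxb i χ) hτ0.le).trans hτb
    have h1 : σ * (s.R i χ * x i χ) ≤ s.R i χ * 1 := by
      rw [mul_left_comm]
      exact mul_le_mul_of_nonneg_left ((le_abs_self _).trans hσx) (h.R_nonneg i χ)
    linarith
  have e : σ ^ 2 = τ ^ 2 := by rw [← sq_abs σ, hσ]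
  have h2 := mul_le_mul_of_nonneg_left hQ (sq_nonneg τ)
  have h3 : C2 * |σ| ^ 3 * (s.Phi + ‖C.Ω‖ ^ 2 + 1) ≤ τ ^ 2 * (τ * A) := by
    rw [hσ, show τ ^ 2 * (τ * A) = τ ^ 3 * A by ring, mul_comm C2, mul_assoc]
    exact mul_le_mul_of_nonneg_left hA (pow_nonneg hτ0.le 3)
  have h4 := mul_le_mul_of_nonneg_left hτ (sq_nonneg τ)
  rw [e] at hstep
  have key : (s.shift σ x).Phi ≤ s.Phi - q * τ ^ 2 := by linarith
  exact ⟨_, hinv hR, hbud.shift hg.le (by linarith [mul_nonneg hq (sq_nonneg τ)]), key⟩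

/-- One step: as long as much of the algebra is in play, the potential drops by a fixed amount. -/
theorem exists_step (hL : LossBound C) {δ Φ0 : ℝ} (hδ : 0 < δ) (hΦ0 : 0 ≤ Φ0) (hg : 0 < gam)
    (hgz : gam ≤ P.z) (htr : traceConst P * (2 * gam / P.eps0 * Φ0) ≤ P.eps0 * δ)
    (hy0 : y0 ∈ C.M) (hE : C.E y0 = 0) :
    ∃ c > 0, ∀ s : St C P, s.Inv y0 → s.Budget gam Φ0 → s.Phi ≤ Φ0 →
      (∀ i, ‖s.B i‖ ≤ P.z - gam) → (∀ χ, s.U χ = 1 → P.S + P.η ≤ s.F χ) → δ < C.intA s.U →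
      ∃ t : St C P, t.Inv y0 ∧ t.Budget gam Φ0 ∧ t.Phi ≤ s.Phi - c := by
  obtain ⟨σ, d, b, -, -, hd0, hmove⟩ := exists_move (C := C) (P := P) hL hg hgz hδ
  have hr := P.r_pos
  obtain ⟨q, hq⟩ : ∃ q, q = P.eps0 * δ := ⟨_, rfl⟩
  have hq0 : 0 < q := hq ▸ mul_pos P.eps0_pos hδ
  obtain ⟨B, hB⟩ : ∃ B, B = max b 1 := ⟨_, rfl⟩
  have hB1 : 1 ≤ B := hB ▸ le_max_right _ _
  obtain ⟨t2, ht2, C2, hT2⟩ := taylor (C := C) (P := P) hg B
  obtain ⟨t1, ht1, C1, hT1⟩ := taylor (C := C) (P := P) hg 1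
  obtain ⟨A, hA⟩ : ∃ A, A = Φ0 + ‖C.Ω‖ ^ 2 + 1 := ⟨_, rfl⟩
  have hA0 : 0 < A := by rw [hA]; positivity
  have hz := P.z_pos
  obtain ⟨k, hk⟩ : ∃ k, k = (P.z / gam + 1) + 2 * (P.z / gam) ^ 2 := ⟨_, rfl⟩
  have hk0 : 0 ≤ k := by rw [hk]; positivity
  obtain ⟨K2, hK2⟩ : ∃ K2, K2 = (2 / P.η) ^ 2 * (P.r * (1 + 1000000 * (k * P.r))) +
      (2 / P.η) ^ 3 * (P.r * (1 + 1000000 * ((1 + (P.z / gam + 1)) * P.r))) ^ 2 := ⟨_, rfl⟩
  have hK20 : 0 ≤ K2 := by have := P.hη; rw [hK2]; positivity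
  obtain ⟨K1, hK1⟩ : ∃ K1, K1 = k * Φ0 + K2 * ‖C.Ω‖ ^ 2 := ⟨_, rfl⟩
  have hK10 : 0 ≤ K1 := hK1 ▸ add_nonneg (mul_nonneg hk0 hΦ0) (mul_nonneg hK20 (sq_nonneg _))
  obtain ⟨τ1, hτ1⟩ : ∃ τ, τ = min (min t1 1) (d / (2 * (K1 + |C1| * A) + 1)) := ⟨_, rfl⟩
  have hτ10 : 0 < τ1 := hτ1 ▸ lt_min (lt_min ht1 one_pos) (div_pos hd0 (by positivity))
  obtain ⟨τ2, hτ2⟩ : ∃ τ, τ = min (min t2 (1 / B)) (q / (|C2| * A + 1)) := ⟨_, rfl⟩
  have hτ20 : 0 < τ2 := hτ2 ▸ lt_min (lt_min ht2 (by positivity)) (div_pos hq0 (by positivity))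
  refine ⟨min (d / P.r) (min (τ1 * d / 2) (q * τ2 ^ 2)),
    lt_min (div_pos hd0 hr) (lt_min (by positivity) (by positivity)),
    fun s h hbud hPhi hgap hfloor hU => ?_⟩
  have hAs : ∀ {c : ℝ}, c * (s.Phi + ‖C.Ω‖ ^ 2 + 1) ≤ |c| * A := fun {c} => by
    have h0 := h.Phi_nonneg
    exact (mul_le_mul_of_nonneg_right (le_abs_self c) (by positivity)).trans
      (mul_le_mul_of_nonneg_left (by rw [hA]; linarith) (abs_nonneg c))
  by_cases hfin : d ≤ C.intA (s.U * s.finishable)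
  · obtain ⟨t, ht, htb, htΦ, -, -⟩ := exists_finish h hbud hg.le
    refine ⟨t, ht, htb, htΦ.trans (sub_le_sub_left ((min_le_left _ _).trans ?_) _)⟩
    rw [one_div_mul_eq_div]
    exact div_le_div_of_nonneg_right hfin hr.le
  rw [not_le] at hfin
  by_cases hbad : ∃ i, d ≤ s.grad i (s.R i * s.bad σ i)
  · obtain ⟨i, hi⟩ := hbad
    have hτ : τ1 * (2 * (K1 + |C1| * A)) ≤ d := by
      have : τ1 * (2 * (K1 + |C1| * A) + 1) ≤ d := by
        rw [← le_div_iff₀ (by positivity), hτ1]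
        exact min_le_right _ _
      linarith
    have ht : |τ1| ≤ t1 := by
      rw [abs_of_pos hτ10, hτ1]; exact (min_le_left _ _).trans (min_le_left _ _)
    obtain ⟨t, a, b', c⟩ := h.exists_lower (τ := τ1) (σ := σ) (C1 := C1) (A := |C1| * A) (K1 := K1)
      hbud hg hi hτ10 (by rw [hτ1]; exact (min_le_left _ _).trans (min_le_right _ _))
      (fun x hx hUx =>
        ⟨(hT1 s y0 x τ1 h hgap hfloor hx hUx ht).1, (hT1 s y0 x τ1 h hgap hfloor hx hUx ht).2.2⟩)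
      (fun x hx => by
        refine (h.second_le hg hgap hx).trans ?_
        rw [← hk, ← hK2, hK1]
        exact add_le_add (mul_le_mul_of_nonneg_left hPhi hk0) le_rfl)
      hAs (by positivity) hτ hd0.le
    exact ⟨t, a, b', c.trans (sub_le_sub_left ((min_le_right _ _).trans (min_le_left _ _)) _)⟩
  push Not at hbad
  have hcorr : traceConst P * ∑ i, (C.tr (s.corr i)).re ≤ P.eps0 * δ := by
    refine le_trans (mul_le_mul_of_nonneg_left (hbud.corr_le.trans ?_) (traceConst_nonneg P)) htr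
    exact mul_le_mul_of_nonneg_left (by linarith [h.Phi_nonneg])
      (div_nonneg (by linarith) P.eps0_pos.le)
  obtain ⟨x, hx, hUx, hxR, hQ⟩ :=
    hmove s y0 h hy0 hE hgap hfloor hU hcorr hfin.le fun i => (hbad i).le
  rw [← hq] at hQ
  have hxb : ∀ i χ, |x i χ| ≤ B := fun i χ => (hx i χ).trans (hB ▸ le_max_left _ _)
  have hσt : ∀ t : ℝ, |t| = τ2 → |t| ≤ t2 := fun t ht => by
    rw [ht, hτ2]; exact (min_le_left _ _).trans (min_le_left _ _)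
  obtain ⟨t, a, b', c⟩ := h.exists_bend (τ := τ2) (C2 := C2) (A := |C2| * A) hbud hg hxb hxR hQ
    (fun t ht => ⟨(hT2 s y0 x t h hgap hfloor hxb hUx (hσt t ht)).1,
      (hT2 s y0 x t h hgap hfloor hxb hUx (hσt t ht)).2.2⟩)
    hAs hq0.le hτ20
    (by rw [← le_div_iff₀ (by linarith), hτ2]; exact (min_le_left _ _).trans (min_le_right _ _))
    (by
      have : τ2 * (|C2| * A + 1) ≤ q := by
        rw [← le_div_iff₀ (by positivity), hτ2]
        exact min_le_right _ _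
      linarith)
  exact ⟨t, a, b', c.trans (sub_le_sub_left ((min_le_right _ _).trans (min_le_right _ _)) _)⟩

end St

end Vale.Agent.P078.Expected
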